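import Vale.Agent.P057L.WeylA

/-!
# From swaps to all permutations
-/

set_option linter.all false

noncomputable section

namespace Vale.Agent.P057T.Gb.H15

open Vale.Agent.P057L.WA Finset

variable {D : Type} [Fintype D] [DecidableEq D]

/-- `chi` is invariant under `s` on `V` up to `e`, modulo one -/
def Iv {E : Type} (V : Set (D → E)) (chi : (D → E) → ℝ) (s : Equiv.Perm D) (e : ℝ) : Prop :=
  ∀ h ∈ V, nz (chi h - chi (h ∘ s)) ≤ e

/-- `V` is closed under permutations -/
def Cl {E : Type} (V : Set (D → E)) : Prop := ∀ h ∈ V, ∀ s : Equiv.Perm D, h ∘ s ∈ V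

theorem nz_zero : nz 0 = 0 := by simp [nz]

theorem Iv.mul {E : Type} {V : Set (D → E)} (hV : Cl V) {chi : (D → E) → ℝ} {s t : Equiv.Perm D}
    {a b : ℝ} (hs : Iv V chi s a) (ht : Iv V chi t b) : Iv V chi (s * t) (a + b) := by
  intro h hh
  have e : chi h - chi (h ∘ ⇑(s * t)) =
      (chi h - chi (h ∘ s)) + (chi (h ∘ s) - chi ((h ∘ s) ∘ t)) := by
    rw [Equiv.Perm.coe_mul, Function.comp_assoc]; ring
  rw [e]
  exact (nz_add_le _ _).trans (add_le_add (hs h hh) (ht _ (hV h hh s)))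

theorem Iv.mono {E : Type} {V : Set (D → E)} {chi : (D → E) → ℝ} {s : Equiv.Perm D}
    {a b : ℝ} (hs : Iv V chi s a) (hab : a ≤ b) : Iv V chi s b :=
  fun h hh => (hs h hh).trans hab

theorem iv_one {E : Type} (V : Set (D → E)) (chi : (D → E) → ℝ) : Iv V chi 1 0 := by
  intro h _
  simp [nz_zero]

theorem iv_swap {E : Type} {V : Set (D → E)} (hV : Cl V) {chi : (D → E) → ℝ} {o : D} {e : ℝ}
    (he : 0 ≤ e) (h : ∀ i, Iv V chi (Equiv.swap o i) e) (x y : D) :
    Iv V chi (Equiv.swap x y) (3 * e) := by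
  by_cases hx : x = o
  · subst hx; exact (h y).mono (by linarith)
  by_cases hy : y = o
  · subst hy; rw [Equiv.swap_comm]; exact (h x).mono (by linarith)
  by_cases hxy : x = y
  · subst hxy
    rw [Equiv.swap_self]
    exact (iv_one V chi).mono (by linarith)
  have e1 : Equiv.swap x y = Equiv.swap o x * Equiv.swap o y * Equiv.swap o x := by
    have := Equiv.swap_apply_apply (Equiv.swap o x) o y
    rw [Equiv.swap_apply_left, Equiv.swap_apply_of_ne_of_ne hy (Ne.symm hxy),
      Equiv.swap_inv] at this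
    exact this
  rw [e1]
  exact (((h x).mul hV (h y)).mul hV (h x)).mono (by linarith)

theorem ex_one (o : D) (s : Equiv.Perm D) : ∃ k : ℕ, ∀ (E : Type) (V : Set (D → E))
    (chi : (D → E) → ℝ) (e : ℝ), Cl V → 0 ≤ e → (∀ i, Iv V chi (Equiv.swap o i) e) →
    Iv V chi s (k * e) := by
  induction s using Equiv.Perm.swap_induction_on with
  | one => exact ⟨0, fun E V chi e _ _ _ => (iv_one V chi).mono (by simp)⟩
  | swap_mul f x y _ ih =>
    obtain ⟨k, hk⟩ := ih
    refine ⟨3 + k, fun E V chi e hV he h => ?_⟩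
    exact ((iv_swap hV he h x y).mul hV (hk E V chi e hV he h)).mono (by push_cast; linarith)

/-- all permutations -/
theorem ex_all (o : D) : ∃ k : ℕ, ∀ (E : Type) (V : Set (D → E))
    (chi : (D → E) → ℝ) (e : ℝ), Cl V → 0 ≤ e → (∀ i, Iv V chi (Equiv.swap o i) e) →
    ∀ s, Iv V chi s (k * e) := by
  choose k hk using ex_one o
  refine ⟨∑ s, k s, fun E V chi e hV he h s => (hk s E V chi e hV he h).mono ?_⟩
  refine mul_le_mul_of_nonneg_right ?_ he
  exact_mod_cast Finset.single_le_sum (f := k) (fun _ _ => Nat.zero_le _) (mem_univ s)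

/-- **SUM** -/
theorem sum (o : D) : ∃ k : ℕ, ∀ (E : Type) (V : Set (D → E)) (chi th : (D → E) → ℝ) (n e : ℝ),
    Cl V → 0 ≤ e → (∀ i, ∀ h ∈ V, nz (n * (chi h - chi (h ∘ Equiv.swap o i))) ≤ e) →
    (∀ h ∈ V, nz (n * (chi h - th h)) ≤ e) → ∀ h ∈ V,
      nz (n * (((Fintype.card D).factorial : ℝ) * chi h - ∑ s : Equiv.Perm D, th (h ∘ s))) ≤
        k * e := by
  obtain ⟨k, hk⟩ := ex_all o
  refine ⟨(Fintype.card D).factorial * (k + 1), fun E V chi th n e hV he h1 h2 h hh => ?_⟩
  have h3 := hk E V (fun h => n * chi h) e hV he (fun i h hh => by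
    have := h1 i h hh
    rwa [mul_sub] at this)
  have e1 : n * (((Fintype.card D).factorial : ℝ) * chi h - ∑ s : Equiv.Perm D, th (h ∘ s)) =
      ∑ s : Equiv.Perm D, ((n * chi h - n * chi (h ∘ s)) + n * (chi (h ∘ s) - th (h ∘ s))) := by
    have : ∀ s : Equiv.Perm D, (n * chi h - n * chi (h ∘ s)) + n * (chi (h ∘ s) - th (h ∘ s)) =
        n * chi h - n * th (h ∘ s) := fun s => by ring
    simp only [this]
    rw [Finset.sum_sub_distrib, Finset.sum_const, card_univ, Fintype.card_perm, nsmul_eq_mul,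
      ← Finset.mul_sum]
    ring
  rw [e1]
  refine (nz_sum_le _ _).trans ?_
  have : ∀ s ∈ (univ : Finset (Equiv.Perm D)),
      nz ((n * chi h - n * chi (h ∘ s)) + n * (chi (h ∘ s) - th (h ∘ s))) ≤ (k + 1) * e := by
    intro s _
    refine (nz_add_le _ _).trans ?_
    have a := h3 s h hh
    have b := h2 _ (hV h hh s)
    linarith
  refine (Finset.sum_le_sum this).trans (le_of_eq ?_)
  rw [Finset.sum_const, card_univ, Fintype.card_perm, nsmul_eq_mul]
  push_cast
  ring

end Vale.Agent.P057T.Gb.H15
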