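import Vale.Agent.P057T.Gb.Defs
import Vale.Agent.P057T.Gb.SumH15

/-! Row SYM. -/

set_option linter.all false

open Finset
open scoped BigOperators

namespace Vale.Agent.P057T.Gb

open Vale.Agent.P057Z Vale.Agent.P057L Vale.Agent.P057T.Gkh Vale.Agent.P057T.Loc

theorem cat_all (hT : TB) {j q : ℕ} {α : Type} (s : Finset α) (M : α → List (Cd j q)) (B : ℝ)
    (h : ∀ a, TT (M a) ∧ Pr (M a) ∧ ((M a).length : ℝ) ≤ B) :
    ∃ L : List (Cd j q), TT L ∧ Pr L ∧ (∀ a ∈ s, M a ⊆ L) ∧ (L.length : ℝ) ≤ s.card * B := by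
  classical
  induction s using Finset.induction_on with
  | empty => exact ⟨[], TT.nil, fun p hp => by simp at hp, fun a ha => by simp at ha, by simp⟩
  | insert a s ha ih =>
    obtain ⟨L, h1, h2, h3, h4⟩ := ih
    refine ⟨M a ++ L, (hT j q).2.2.2.2.1 _ _ (h a).1 h1, fun p hp => ?_, fun b hb => ?_, ?_⟩
    · exact (List.mem_append.1 hp).elim ((h a).2.1 p) (h2 p)
    · rcases mem_insert.1 hb with rfl | hb
      · exact List.subset_append_left _ _
      · exact List.Subset.trans (h3 b hb) (List.subset_append_right _ _)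
    · rw [List.length_append, card_insert_of_notMem ha]
      push_cast
      have := (h a).2.2
      linarith

theorem sh_mono {j q : ℕ} {x y : ℝ} (e : x ≤ y) {W : Pt j q} (h : Sh x W) : Sh y W :=
  fun i l => (h i l).trans e

theorem vl_mono {j q : ℕ} {L L' : List (Cd j q)} {x y : ℝ} (s : L ⊆ L') (e : x ≤ y) {W : Pt j q}
    (h : Vl L' x W) : Vl L y W := fun p hp => (h p (s hp)).trans e

theorem sym (hT : TB) (hP : PERM) (j : ℕ) (h1 : LOCT (j + 1)) (h2 : LOCB j) : SYM j := by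
  classical
  obtain ⟨C1, h1⟩ := h1
  obtain ⟨C2, h2⟩ := h2
  obtain ⟨k, hk⟩ := H15.sum (0 : Fin (j + 1))
  obtain ⟨C0, hC0⟩ : ∃ C0, C0 = C1 + 2 * C2 + 2 := ⟨_, rfl⟩
  obtain ⟨K, hK⟩ : ∃ K, K = (j + 1).factorial * (j + 1) := ⟨_, rfl⟩
  refine ⟨C0 + 2 + k + K, fun Y q N ι _ L χ Th hS hj hι hL => ?_⟩
  have hY : ((C0 + 2 + k + K : ℕ) : ℝ) ≤ Y := hS.C1
  have cY : ∀ n : ℕ, n ≤ C0 + 2 + k + K → (n : ℝ) ≤ Y := fun n hn => (Nat.cast_le.2 hn).trans hY
  have Y2 : (2 : ℝ) ≤ Y := by exact_mod_cast cY 2 (by omega)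
  have Y1 : (1 : ℝ) ≤ Y := by linarith
  have pw : ∀ a b : ℕ, a ≤ b → Y ^ a ≤ Y ^ b := fun a b h => pow_le_pow_right₀ Y1 h
  have ex : ∀ a : ℕ, a ≤ C0 + 2 + k + K →
      Real.exp (-Y ^ (C0 + 2 + k + K)) ≤ Real.exp (-Y ^ a) := fun a h =>
    Real.exp_le_exp.2 (neg_le_neg (pw _ _ h))
  have N0 : (0 : ℝ) ≤ N := Nat.cast_nonneg N
  have YY : 2 * Y ≤ Y ^ 2 := by nlinarith
  have S1 : Sz C1 Y q N := ⟨cY _ (by omega), hS.q1, hS.qY, (pw _ _ (by omega)).trans hS.lg⟩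
  have S2 : Sz C2 (Y ^ 2) q N := ⟨by have := cY C2 (by omega); linarith, hS.q1,
    by have := hS.qY; linarith, by rw [← pow_mul]; exact (pw _ _ (by omega)).trans hS.lg⟩
  have A : ∀ a, ∃ M : List (Cd (j + 1) q), TT M ∧ L a ⊆ M ∧ (M.length : ℝ) ≤ Y ^ C0 ∧ Pr M ∧
      ∀ W, Sh (Real.exp (-Y ^ (C0 + 2 + k + K)) * N) W →
        Vl M (Real.exp (-Y ^ (C0 + 2 + k + K))) W → nz (χ a W - Th a W) ≤ Real.exp (-Y ^ 2) := by
    intro a
    obtain ⟨l1, l2, l3, -, -, ⟨g, S, hI⟩, -⟩ := hL a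
    obtain ⟨M, m1, m2, m3, m4, m5⟩ := h1 Y q N Unit (L a) univ _ _ S _ S1 (by simpa using Y1) l1
      (Real.exp_pos _).le (ex _ (by omega)) hI
    refine ⟨M, m1, m2, m3.trans (pw _ _ (by omega)), m4 (by omega) l3, fun W w1 w2 => ?_⟩
    refine (m5 W (sh_mono (mul_le_mul_of_nonneg_right (ex _ (by omega)) N0) w1)
      (vl_mono (List.Subset.refl _) (ex _ (by omega)) w2) ()).trans ?_
    rw [← Real.exp_add]
    refine Real.exp_le_exp.2 ?_
    have a1 := pw C1 C0 (by omega)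
    have a2 := pw 2 C0 (by omega)
    have a3 := pw (C0 + 1) (C0 + 2 + k + K) (by omega)
    have a4 : 2 * Y ^ C0 ≤ Y ^ (C0 + 1) := by
      rw [pow_succ, mul_comm]
      exact mul_le_mul_of_nonneg_left Y2 (by positivity)
    linarith
  have B : ∀ a (i : Fin j), ∃ M : List (Cd (j + 1) q), TT M ∧ (M.length : ℝ) ≤ Y ^ C0 ∧ Pr M ∧
      ∀ W, Sh (Real.exp (-Y ^ (C0 + 2 + k + K)) * N) W →
        Vl M (Real.exp (-Y ^ (C0 + 2 + k + K))) W →
        nz (χ a W - χ a (W ∘ Equiv.swap 0 i.succ)) ≤ Real.exp (-Y ^ 2) := by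
    intro a i
    obtain ⟨l1, l2, l3, l4, -, -, l7⟩ := hL a
    obtain ⟨u, u1, u2, u3, u4⟩ := l7 i
    obtain ⟨p1, p2, -, p4⟩ := (hP (j + 1) q).1 (Equiv.swap 0 i.succ) (L a)
    have t1 : Top (L a ++ pm (Equiv.swap 0 i.succ) (L a)) univ
        (fun h => χ a h - χ a (h ∘ Equiv.swap 0 i.succ)) := by
      have e : (fun h => χ a h - χ a (h ∘ Equiv.swap 0 i.succ)) =
          fun h => χ a h + (-1) * χ a (h ∘ Equiv.swap 0 i.succ) := funext fun _ => by ring
      have t2 := p4 _ _ l4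
      rw [map_univ_equiv] at t2
      rw [e]
      exact Top.add ((hT _ _).2.2.1 _ _ _ _ (List.subset_append_left _ _) l4)
        ((hT _ _).1 _ _ _ _ ((hT _ _).2.2.1 _ _ _ _ (List.subset_append_right _ _) t2))
    obtain ⟨M, m1, -, m3, m4, m5⟩ := h2 (Y ^ 2) q N _ _ u S2 hj
      (by rw [List.length_append, pm, List.length_map]; push_cast; linarith)
      ((hT _ _).2.2.2.2.1 _ _ l2 (p1 l2))
      (fun p hp => (List.mem_append.1 hp).elim (l3 p) (p2 l3 p)) t1 u1 u2 u3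
      (le_trans (mul_le_mul_of_nonneg_right (Real.exp_le_exp.2 (by linarith)) (by positivity)) u4)
    rw [← pow_mul] at m3 m5
    exact ⟨M, m1, m3.trans (pw _ _ (by omega)), m4, fun W w1 w2 =>
      m5 W (sh_mono (mul_le_mul_of_nonneg_right (ex _ (by omega)) N0) w1)
        (vl_mono (List.Subset.refl _) (ex _ (by omega)) w2)⟩
  choose MA a1 a2 a3 a4 a5 using A
  choose MB b1 b3 b4 b5 using B
  obtain ⟨L0, c1, c2, c3, c4⟩ := cat_all hT (univ : Finset (ι × Option (Fin j)))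
    (fun x => x.2.elim (MA x.1) (MB x.1)) (Y ^ C0) (by
      rintro ⟨a, _ | i⟩
      · exact ⟨a1 a, a4 a, a3 a⟩
      · exact ⟨b1 a i, b4 a i, b3 a i⟩)
  obtain ⟨L', d1, d2, d3, d4, d5⟩ := (hP (j + 1) q).2 L0 c1
  have sA : ∀ a, MA a ⊆ L' := fun a => List.Subset.trans (c3 (a, none) (mem_univ _)) d2
  have sB : ∀ a i, MB a i ⊆ L' := fun a i => List.Subset.trans (c3 (a, some i) (mem_univ _)) d2
  refine ⟨L', d1, d4 c2, fun a => List.Subset.trans (a2 a) (sA a), ?_, d5, fun h w1 w2 a => ?_⟩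
  · have e1 : (L'.length : ℝ) ≤ ((j + 1).factorial : ℝ) * L0.length := by exact_mod_cast d3
    rw [card_univ, Fintype.card_prod, Fintype.card_option, Fintype.card_fin] at c4
    have e2 : (K : ℝ) ≤ Y := cY K (by omega)
    have e3 : (K : ℝ) = ((j + 1).factorial : ℝ) * (j + 1 : ℕ) := by rw [hK]; push_cast; ring
    have e4 : (0 : ℝ) ≤ Y ^ C0 := by positivity
    calc (L'.length : ℝ)
        ≤ ((j + 1).factorial : ℝ) * (((Fintype.card ι * (j + 1) : ℕ) : ℝ) * Y ^ C0) :=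
          e1.trans (mul_le_mul_of_nonneg_left c4 (Nat.cast_nonneg _))
      _ = K * Fintype.card ι * Y ^ C0 := by rw [e3]; push_cast; ring
      _ ≤ Y * Y * Y ^ C0 := mul_le_mul_of_nonneg_right
          (mul_le_mul e2 hι (Nat.cast_nonneg _) (by linarith)) e4
      _ = Y ^ (C0 + 2) := by ring
      _ ≤ _ := pw _ _ (by omega)
  · have key := hk (Vz q) {h | Sh (Real.exp (-Y ^ (C0 + 2 + k + K)) * N) h ∧
        Vl L' (Real.exp (-Y ^ (C0 + 2 + k + K))) h} (χ a) (Th a) 1 (Real.exp (-Y ^ 2))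
      (fun h hh σ => ⟨fun i l => hh.1 (σ i) l, d5 σ _ h hh.2⟩) (Real.exp_pos _).le
      (fun i h hh => by
        rw [one_mul]
        refine Fin.cases ?_ (fun i => ?_) i
        · rw [Equiv.swap_self]
          simp [H15.nz_zero, (Real.exp_pos _).le]
        · rw [WA.nz_eq]
          exact b5 a i h hh.1 (vl_mono (sB a i) le_rfl hh.2))
      (fun h hh => by
        rw [one_mul, WA.nz_eq]
        exact a5 a h hh.1 (vl_mono (sA a) le_rfl hh.2)) h ⟨w1, w2⟩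
    rw [one_mul, WA.nz_eq, Fintype.card_fin] at key
    refine le_trans key ?_
    have e1 : (k : ℝ) ≤ Real.exp Y := by
      have := cY k (by omega)
      have := Real.add_one_le_exp Y
      linarith
    refine (mul_le_mul_of_nonneg_right e1 (Real.exp_pos _).le).trans ?_
    rw [← Real.exp_add]
    exact Real.exp_le_exp.2 (by linarith)

end Vale.Agent.P057T.Gb
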