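import Vale.Agent.P057T.Gb.F2c
import Vale.Agent.P057T.Gb.Sym
import Vale.Agent.P057T.Loc.Locb
import Vale.Agent.P057T.Loc.Loct
import Vale.Agent.P057T.Loc.Rnd
import Vale.Agent.P057T.Loc.Pop
import Vale.Agent.P057T.Loc.Dif
import Vale.Agent.P057T.Loc.Fib1
import Vale.Agent.P057T.Loc.Fin
import Vale.Agent.P057T.Loc.Flat
import Vale.Agent.P057T.Loc.Bohr

/-! Closed forms of the local rigidity theorems and of the symmetrisation. -/

set_option linter.all false

namespace Vale.Agent.P057T.Gb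

open Vale.Agent.P057T.Loc

theorem loctc (j : ℕ) : LOCT j :=
  loct tb (flat tb) (st0 tb (flat tb)) (rnd (dif tb) pop fib1) (Loc.fin tb (dif tb) pop fib1) j

theorem locbc (j : ℕ) : LOCB j := locb tb (flat tb) bohr j (loctc j)

theorem symc (j : ℕ) : SYM j := sym tb perm j (loctc (j + 1)) (locbc j)

end Vale.Agent.P057T.Gb
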