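import Vale.Agent.P057T.Gb.Defs
import Vale.Agent.P057T.Loc.Tb

/-! Rows CEL and USE: the words of a cell and additivity over the copies. -/

set_option linter.all false

open Finset
open scoped BigOperators

namespace Vale.Agent.P057T.Gb

open Vale.Agent.P057Z Vale.Agent.P057L Vale.Agent.P057T.Gkh Vale.Agent.P057T.Loc

noncomputable section

namespace Ce

variable {j q p m : ℕ}

theorem nz_add (x y : ℝ) : nz (x + y) ≤ nz x + nz y := by
  unfold nz
  refine (round_le _ (round x + round y)).trans ?_
  have : x + y - ((round x + round y : ℤ) : ℝ) = (x - round x) + (y - round y) := by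
    push_cast; ring
  rw [this]
  exact abs_add_le _ _

theorem cwF (c : Fin j → Fin p) {L : List (Cd j (p * m))} {t : Finset (Fin j)}
    {F : Pt j (p * m) → ℝ} (h : Top L t F) :
    Top (cw c L) (up t) (fun W => F (em c (Fin.tail W))) := by
  induction h with
  | cst d => exact Top.cst d
  | zero t => exact Top.zero _
  | add _ _ h1 h2 => exact Top.add h1 h2
  | ent i l hi _ h1 =>
    by_cases e : (finProdFinEquiv.symm l).1 = c i
    · exact TbP.congr' (Top.ent (Fin.succEmb j i) (finProdFinEquiv.symm l).2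
        (fun hh => hi ((Finset.mem_map' _).1 hh)) h1) (Finset.map_insert _ _ _).symm
        (fun W => by simp only [em, ib, if_pos e]; rfl)
    · exact TbP.congr' (Top.zero _) rfl
        (fun W => by simp only [em, ib, if_neg e, Int.cast_zero, zero_mul])
  | brk u hp hd _ h1 =>
    exact TbP.congr' (Top.brk (up u.1, fun W => u.2 (em c (Fin.tail W)))
      (List.mem_map.2 ⟨u, hp, rfl⟩) ((Finset.disjoint_map _).2 hd) h1)
      (Finset.map_union _ _).symm (fun W => rfl)

theorem cwT (c : Fin j → Fin p) {L : List (Cd j (p * m))} (h : TT L) : TT (cw c L) := by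
  induction h with
  | nil => exact TT.nil
  | cons _ hn hf ih => exact TT.cons ih (Finset.map_nonempty.2 hn) (cwF c hf)

theorem cwP (c : Fin j → Fin p) (L : List (Cd j (p * m))) : Pr (cw c L) := by
  intro u hu e
  obtain ⟨v, -, rfl⟩ := List.mem_map.1 hu
  exact TbP.zero_not_up v.1 (by rw [show up v.1 = univ from e]; exact mem_univ _)

theorem ins_up : insert 0 (up (univ : Finset (Fin j))) = univ := by
  ext i
  refine Fin.cases ?_ (fun k => ?_) i
  · simp
  · simp only [mem_insert, mem_univ, iff_true]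
    exact Or.inr (mem_map.2 ⟨k, mem_univ _, rfl⟩)

theorem chiT (c : Fin j → Fin p) {L : List (Cd j (p * m))} {X : Fin m → Pt j (p * m) → ℝ}
    (h : ∀ l, Top L univ (X l)) : Top (cw c L) univ (chi c X) :=
  TbP.congr' (TbP.sum univ _ fun l _ => Top.ent 0 l (TbP.zero_not_up univ) (cwF c (h l))) ins_up
    fun W => sum_congr rfl fun l _ => mul_comm _ _

theorem zA {L : List (Cd j q)} {t : Finset (Fin j)} {F : Pt j q → ℝ} {i : Fin j} {W : Pt j q}
    (h0 : W i = 0) (hL : ∀ u ∈ L, i ∈ u.1 → u.2 W = 0) (h : Top L t F) (hi : i ∈ t) :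
    F W = 0 := by
  induction h with
  | cst d => exact absurd hi (notMem_empty _)
  | zero t => rfl
  | add _ _ h1 h2 => show _ + _ = (0 : ℝ); rw [h1 hi, h2 hi, add_zero]
  | ent k l hk _ h1 =>
    show _ * _ = (0 : ℝ)
    rcases mem_insert.1 hi with rfl | hi
    · simp [h0]
    · rw [h1 hi, mul_zero]
  | brk u hu _ _ h1 =>
    show _ * _ = (0 : ℝ)
    rcases mem_union.1 hi with hi | hi
    · simp [hL u hu hi]
    · rw [h1 hi, mul_zero]

theorem zB {L : List (Cd j q)} {i : Fin j} {W : Pt j q} (h0 : W i = 0) (h : TT L) :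
    ∀ u ∈ L, i ∈ u.1 → u.2 W = 0 := by
  induction h with
  | nil => intro u hu; exact absurd hu List.not_mem_nil
  | cons _ _ hf ih =>
    intro u hu hi
    rcases List.mem_cons.1 hu with rfl | hu
    · exact zA h0 ih hf hi
    · exact ih u hu hi

/-- a homogeneous form vanishes when one of its classes is zero -/
theorem zero_cl {L : List (Cd j q)} {t : Finset (Fin j)} {F : Pt j q → ℝ} {i : Fin j}
    {W : Pt j q} (hT : TT L) (h : Top L t F) (hi : i ∈ t) (h0 : W i = 0) : F W = 0 :=
  zA h0 (zB h0 hT) h hi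

/-- additivity over a finite sum in one class -/
theorem one {α : Type} {L : List (Cd j q)} (hT : TT L) (i : Fin j) (W : Pt j q) (v : α → Vz q)
    (ρ : ℝ) (hρ : 0 ≤ ρ) (s : Finset α) (hs : (s.card : ℝ) * ρ < 1 / 2)
    (hv : ∀ a ∈ s, ∀ u ∈ L, i ∈ u.1 → nz (u.2 (Function.update W i (v a))) ≤ ρ) :
    (∀ u ∈ L, i ∈ u.1 → nz (u.2 (Function.update W i (∑ a ∈ s, v a))) ≤ s.card * ρ) ∧
      ∀ t F, Top L t F → i ∈ t →
        F (Function.update W i (∑ a ∈ s, v a)) = ∑ a ∈ s, F (Function.update W i (v a)) := by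
  classical
  induction s using Finset.induction_on with
  | empty =>
    refine ⟨fun u hu hi => ?_, fun t F hF hi => ?_⟩
    · rw [zB (by simp) hT u hu hi]; simp [nz]
    · rw [zero_cl hT hF hi (by simp), sum_empty]
  | insert a s ha ih =>
    rw [card_insert_of_notMem ha] at hs ⊢
    push_cast at hs ⊢
    obtain ⟨i1, i2⟩ := ih (by nlinarith) fun b hb => hv b (mem_insert_of_mem hb)
    have key : ∀ t F, Top L t F → i ∈ t → F (Function.update W i (v a + ∑ b ∈ s, v b)) =
        F (Function.update W i (v a)) + F (Function.update W i (∑ b ∈ s, v b)) :=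
      fun t F hF hi => TbP.addA (FrmP.depB (TbP.twr hT))
        (TbP.addB (r := ρ) (r' := s.card * ρ) (by linarith) hT (hv a (mem_insert_self _ _)) i1)
        hF hi
    refine ⟨fun u hu hi => ?_, fun t F hF hi => ?_⟩
    · rw [sum_insert ha, key _ _ (TbP.mem hT u hu).2 hi]
      refine (nz_add _ _).trans ?_
      linarith [hv a (mem_insert_self _ _) u hu hi, i1 u hu hi]
    · rw [sum_insert ha, sum_insert ha, key t F hF hi, i2 t F hF hi]

theorem sum_ib (w : Vz (p * m)) : ∑ a, ib a (bk w a) = w := by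
  funext x
  rw [Finset.sum_apply]
  simp only [ib]
  rw [sum_ite_eq, if_pos (mem_univ _), bk]
  exact congrArg w (finProdFinEquiv.apply_symm_apply x)

/-- full on `K`, one block elsewhere -/
def hy (H : Pt j (p * m)) (K : Finset (Fin j)) (c : Fin j → Fin p) : Pt j (p * m) :=
  fun i => if i ∈ K then H i else ib (c i) (bk (H i) (c i))

theorem many {L : List (Cd j (p * m))} (hT : TT L) (r : ℝ) (H : Pt j (p * m)) (hr : 0 ≤ r)
    (h4 : ((p : ℝ) + 1) ^ (j + 1) * r ≤ 1 / 4) (hv : ∀ c, Vl L r (em c (pr c H)))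
    (K : Finset (Fin j)) : ∀ c0, Vl L (((p : ℝ) + 1) ^ K.card * r) (hy H K c0) ∧
      ∀ F, Top L univ F → F (hy H K c0) =
        ∑ c ∈ univ.filter (fun c : Fin j → Fin p => ∀ i, i ∉ K → c i = c0 i),
          F (em c (pr c H)) := by
  classical
  induction K using Finset.induction_on with
  | empty =>
    intro c0
    have e : hy H ∅ c0 = em c0 (pr c0 H) := by funext i; simp [hy, em, pr]
    refine ⟨by simpa [e] using hv c0, fun F _ => ?_⟩
    rw [e, sum_eq_single c0]
    · intro c hc hne
      exact absurd (funext fun i => (mem_filter.1 hc).2 i (notMem_empty _)) hne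
    · intro h
      exact absurd (mem_filter.2 ⟨mem_univ _, fun _ _ => rfl⟩) h
  | insert i K hi ih =>
    intro c0
    have p1 : (1 : ℝ) ≤ (p : ℝ) + 1 := by have := Nat.cast_nonneg (α := ℝ) p; linarith
    have hK : K.card ≤ j := (card_le_univ K).trans (by simp)
    have hρ : 0 ≤ ((p : ℝ) + 1) ^ K.card * r := by positivity
    have hb : ((p : ℝ) + 1) * (((p : ℝ) + 1) ^ K.card * r) ≤ 1 / 4 := by
      refine le_trans ?_ h4
      rw [← mul_assoc, ← pow_succ']
      exact mul_le_mul_of_nonneg_right (pow_le_pow_right₀ p1 (by omega)) hr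
    have e1 : hy H (insert i K) c0 =
        Function.update (hy H K c0) i (∑ a ∈ univ, ib a (bk (H i) a)) := by
      funext k
      by_cases hk : k = i
      · subst hk; simp [hy, sum_ib]
      · simp [hy, hk]
    have e2 : ∀ a, Function.update (hy H K c0) i (ib a (bk (H i) a)) =
        hy H K (Function.update c0 i a) := by
      intro a
      funext k
      by_cases hk : k = i
      · subst hk; simp [hy, hi]
      · simp [hy, hk]
    obtain ⟨o1, o2⟩ := one hT i (hy H K c0) (fun a => ib a (bk (H i) a)) _ hρ univ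
      (by rw [card_univ, Fintype.card_fin]; nlinarith)
      (fun a _ u hu _ => by rw [e2]; exact (ih _).1 u hu)
    rw [card_univ, Fintype.card_fin] at o1
    rw [card_insert_of_notMem hi, pow_succ', mul_assoc]
    refine ⟨fun u hu => ?_, fun F hF => ?_⟩
    · by_cases hu' : i ∈ u.1
      · rw [e1]
        exact (o1 u hu hu').trans (by nlinarith)
      · have : u.2 (hy H (insert i K) c0) = u.2 (hy H K c0) :=
          tb j _ |>.2.2.2.2.2.1 L u.1 u.2 _ _ hT (TbP.mem hT u hu).2 fun k hk => by
            rw [e1, Function.update_of_ne (fun e : k = i => hu' (e ▸ hk))]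
        rw [this]
        exact ((ih c0).1 u hu).trans (by nlinarith)
    · rw [e1, o2 _ F hF (mem_univ _), ← sum_fiberwise (g := fun c : Fin j → Fin p => c i)]
      refine sum_congr rfl fun a _ => ?_
      rw [e2, (ih _).2 F hF]
      refine sum_congr ?_ fun _ _ => rfl
      ext c
      simp only [mem_filter, mem_univ, true_and, mem_insert, not_or]
      constructor
      · intro h
        refine ⟨fun k hk => ?_, ?_⟩
        · rw [h k hk.2, Function.update_of_ne hk.1]
        · rw [h i hi, Function.update_self]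
      · rintro ⟨h, h'⟩ k hk
        by_cases e : k = i
        · subst e; rw [Function.update_self, h']
        · rw [Function.update_of_ne e, h k ⟨e, hk⟩]

end Ce

theorem cel : CEL := by
  intro j p m L hT
  refine ⟨fun c => ⟨Ce.cwT c hT, Ce.cwP c L, fun X h => Ce.chiT c h⟩, fun r H hr h4 hv F hF => ?_⟩
  rcases isEmpty_or_nonempty (Fin j → Fin p) with h | ⟨⟨c0⟩⟩
  · obtain ⟨i, hi⟩ := isEmpty_pi.1 h
    rw [Ce.zero_cl hT hF (mem_univ i)
      (funext fun x => (hi.false (finProdFinEquiv.symm x).1).elim), sum_of_isEmpty]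
  · have := (Ce.many hT r H hr h4 hv univ c0).2 F hF
    rw [show Ce.hy H univ c0 = H from funext fun i => if_pos (mem_univ i)] at this
    rw [this]
    exact sum_congr (by ext c; simp) fun _ _ => rfl

theorem use : USE := by
  intro j p m L Lt F X s0 ρ r W0 W s hT hX hρ h4 hA hr hp hv
  have e : ∀ l, F l W = fc (F l) W0 W + ∑ c, X l (em c (pr c (W - W0))) := fun l => by
    rw [← (cel j p m Lt hT).2 r (W - W0) hr hp hv _ (hX l).1, fc,
      ((hX l).2 s0 ρ W W0 hρ h4 hA).2]
    ring
  simp only [chi]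
  rw [sum_comm (s := (univ : Finset (Fin j → Fin p))), ← sum_add_distrib]
  refine sum_congr rfl fun l _ => ?_
  rw [e l, add_mul, sum_mul]
  rfl

end

end Vale.Agent.P057T.Gb
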