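import Vale.Agent.P057T.Loc.Defs
import Vale.Agent.P057T.Val32

/-! Symmetry of the local top forms and their removal on killed sub-boxes: statements. -/

set_option linter.all false

open Finset
open scoped BigOperators

namespace Vale.Agent.P057T.Gb

open Vale.Agent.P057Z Vale.Agent.P057L Vale.Agent.P057T.Gkh Vale.Agent.P057T.Loc

noncomputable section

variable {j q p m : ℕ}

/-- the permuted tower -/
def pm (σ : Equiv.Perm (Fin j)) (L : List (Cd j q)) : List (Cd j q) :=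
  L.map fun u => (u.1.map σ.toEmbedding, fun W => u.2 (W ∘ σ))

/-- validity is invariant under permutations of the classes -/
def Pc (L : List (Cd j q)) : Prop := ∀ (σ : Equiv.Perm (Fin j)) r W, Vl L r W → Vl L r (W ∘ σ)

/-- bias against faces -/
def Bi (L : List (Cd j q)) (F : Pt j q → ℝ) (N : ℕ) (Y : ℝ) : Prop :=
  ∃ u : Fin j → Pt j q → ℂ, (∀ i W, ‖u i W‖ ≤ 1) ∧ (∀ i, Ig (u i) i) ∧
    (∀ W, ∏ i, u i W ≠ 0 → Vl L (1 / 8) W) ∧ Real.exp (-Y) * (N : ℝ) ^ (j * q) ≤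
      ‖∑ W ∈ Fintype.piFinset (fun _ : Fin j => sz q N), (∏ i, u i W) * ee (F W)‖

/-- small modulo faces on a dense set -/
def Sf (L : List (Cd j q)) (F : Pt j q → ℝ) (N : ℕ) (Y ε : ℝ) : Prop :=
  ∃ (g : Fin j → Pt j q → ℝ) (S : Finset (Pt j q)),
    In L univ (fun _ : Unit => F) (fun _ => g) S N Y ε

/-- the vector `v` in the block `a` -/
def ib (a : Fin p) (v : Vz m) : Vz (p * m) := fun x =>
  if (finProdFinEquiv.symm x).1 = a then v (finProdFinEquiv.symm x).2 else 0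

/-- the block `a` -/
def bk (w : Vz (p * m)) (a : Fin p) : Vz m := fun l => w (finProdFinEquiv (a, l))

/-- the tuple supported on the copies `c` -/
def em (c : Fin j → Fin p) (h : Pt j m) : Pt j (p * m) := fun i => ib (c i) (h i)

/-- the copies `c` of a tuple -/
def pr (c : Fin j → Fin p) (H : Pt j (p * m)) : Pt j m := fun i => bk (H i) (c i)

/-- the words on the copies `c`, as a tower on one more class -/
def cw (c : Fin j → Fin p) (L : List (Cd j (p * m))) : List (Cd (j + 1) m) :=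
  L.map fun u => (up u.1, fun h => u.2 (em c (Fin.tail h)))

/-- the form of the cell `c`: the vector form `X` on the copies `c` paired with the class `0` -/
def chi (c : Fin j → Fin p) (X : Fin m → Pt j (p * m) → ℝ) (h : Pt (j + 1) m) : ℝ :=
  ∑ l, X l (em c (Fin.tail h)) * (h 0 l : ℝ)

/-- all brackets lie in one arc -/
def Ar (L : List (Cd j q)) (s : Cd j q → ℝ) (ρ : ℝ) (W : Pt j q) : Prop :=
  ∀ u ∈ L, |u.2 W - round (u.2 W) - s u| ≤ ρ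

/-- `Lt` is the top tower of `L`, `X` the top form of `F` -/
def Tp (L Lt : List (Cd j q)) (t : Finset (Fin j)) (F X : Pt j q → ℝ) : Prop :=
  Top Lt t X ∧ ∀ (s : Cd j q → ℝ) (ρ : ℝ) (W W1 : Pt j q), 0 ≤ ρ → 2 ^ j * ρ ≤ 1 / 4 →
    (∀ J, Ar L s ρ (sb J W1 W)) → Vl Lt (2 ^ j * ρ) (W - W1) ∧
      Val.dl t (fun J => F (sb J W1 W)) = X (W - W1)

/-! ### Rows -/

/-- permutations -/
def PERM : Prop := ∀ j q : ℕ,
  (∀ (σ : Equiv.Perm (Fin j)) (L : List (Cd j q)), (TT L → TT (pm σ L)) ∧ (Pr L → Pr (pm σ L)) ∧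
    (∀ r W, Vl (pm σ L) r W ↔ Vl L r (W ∘ σ)) ∧
    ∀ t F, Top L t F → Top (pm σ L) (t.map σ.toEmbedding) fun W => F (W ∘ σ)) ∧
  ∀ L : List (Cd j q), TT L → ∃ L' : List (Cd j q), TT L' ∧ L ⊆ L' ∧
    L'.length ≤ j.factorial * L.length ∧ (Pr L → Pr L') ∧ Pc L'

/-- top towers -/
def TOPL : Prop := ∀ (j q : ℕ) (L : List (Cd j q)), Twr L → ∃ Lt : List (Cd j q), TT Lt ∧
  Lt.length ≤ L.length ∧ ∀ t F, Frm L t F → ∃ X, Tp L Lt t F X

/-- the words of a cell, and additivity over the copies -/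
def CEL : Prop := ∀ (j p m : ℕ) (L : List (Cd j (p * m))), TT L →
  (∀ c : Fin j → Fin p, TT (cw c L) ∧ Pr (cw c L) ∧
    ∀ X : Fin m → Pt j (p * m) → ℝ, (∀ l, Top L univ (X l)) → Top (cw c L) univ (chi c X)) ∧
  ∀ (r : ℝ) (H : Pt j (p * m)), 0 ≤ r → ((p : ℝ) + 1) ^ (j + 1) * r ≤ 1 / 4 →
    (∀ c, Vl L r (em c (pr c H))) → ∀ F, Top L univ F → F H = ∑ c, F (em c (pr c H))

/-- the swap of the classes `0` and `i`, from the correlation of the stage -/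
def F2 (j : ℕ) : Prop := ∃ C : ℕ, ∀ (Y : ℝ) (p m N : ℕ) (L Lt : List (Cd j (p * m)))
  (F X : Fin m → Pt j (p * m) → ℝ) (s0 : Cd j (p * m) → ℝ) (ρ : ℝ) (Ω : Finset (Pt j (p * m)))
  (u : Pt j (p * m) → ℂ) (g : (Fin j → Fin p) → Vz m → ℂ) (c : Fin j → Fin p) (i : Fin j),
  Sz C Y m N → ((p * m : ℕ) : ℝ) ≤ Y → TT Lt → (∀ l, Tp L Lt univ (F l) (X l)) → 0 ≤ ρ →
  2 ^ j * ρ ≤ 1 / 8 → (∀ W ∈ Ω, Ar L s0 ρ W) → (∀ W, ‖u W‖ ≤ 1) → (∀ W, W ∉ Ω → u W = 0) →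
  (∀ c x, ‖g c x‖ ≤ 1) →
  Real.exp (-Y) * (N : ℝ) ^ (j * (p * m) + m) ≤ ‖∑ W ∈ bp j (p * m) N, ∑ s ∈ bz m N,
    u W * (∏ c', g c' (s + ∑ k, bk (W k) (c' k))) * ee (∑ l, F l W * (s l : ℝ))‖ →
  Bi (cw c Lt ++ pm (Equiv.swap 0 i.succ) (cw c Lt))
    (fun h => chi c X h - chi c X (h ∘ Equiv.swap 0 i.succ)) N (Y ^ C)

/-- symmetrisation on all valid tuples -/
def SYM (j : ℕ) : Prop := ∃ C : ℕ, ∀ (Y : ℝ) (q N : ℕ) (ι : Type) [Fintype ι]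
  (L : ι → List (Cd (j + 1) q)) (χ Th : ι → Pt (j + 1) q → ℝ), Sz C Y q N → 1 ≤ j →
  (Fintype.card ι : ℝ) ≤ Y → (∀ a, ((L a).length : ℝ) ≤ Y ∧ TT (L a) ∧ Pr (L a) ∧
    Top (L a) univ (χ a) ∧ Top (L a) univ (Th a) ∧
    Sf (L a) (fun h => χ a h - Th a h) N Y (Real.exp (-Y ^ C)) ∧
    ∀ i : Fin j, Bi (L a ++ pm (Equiv.swap 0 i.succ) (L a))
      (fun h => χ a h - χ a (h ∘ Equiv.swap 0 i.succ)) N Y) →
  ∃ L' : List (Cd (j + 1) q), TT L' ∧ Pr L' ∧ (∀ a, L a ⊆ L') ∧ (L'.length : ℝ) ≤ Y ^ C ∧ Pc L' ∧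
    ∀ h, Sh (Real.exp (-Y ^ C) * N) h → Vl L' (Real.exp (-Y ^ C)) h → ∀ a,
      nz (((j + 1).factorial : ℝ) * χ a h - ∑ σ : Equiv.Perm (Fin (j + 1)), Th a (h ∘ σ)) ≤
        Real.exp (-Y)

/-- the faces of a point with respect to the base `W0` -/
def fc (F : Pt j q → ℝ) (W0 W : Pt j q) : ℝ := F W - Val.dl univ fun J => F (sb J W0 W)

/-- on hybrids of one arc the phase is the sum of the faces and of the forms of the cells -/
def USE : Prop := ∀ (j p m : ℕ) (L Lt : List (Cd j (p * m))) (F X : Fin m → Pt j (p * m) → ℝ)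
  (s0 : Cd j (p * m) → ℝ) (ρ r : ℝ) (W0 W : Pt j (p * m)) (s : Vz m), TT Lt →
  (∀ l, Tp L Lt univ (F l) (X l)) → 0 ≤ ρ → 2 ^ j * ρ ≤ 1 / 4 → (∀ J, Ar L s0 ρ (sb J W0 W)) →
  0 ≤ r → ((p : ℝ) + 1) ^ (j + 1) * r ≤ 1 / 4 → (∀ c, Vl Lt r (em c (pr c (W - W0)))) →
  ∑ l, F l W * (s l : ℝ) =
    ∑ l, fc (F l) W0 W * (s l : ℝ) + ∑ c, chi c X (cn s (pr c (W - W0)))

end

end Vale.Agent.P057T.Gb
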