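import Vale.Agent.P057T.Gb.SwH24
import Vale.Agent.P057T.Val32

/-! The symmetry step up to the bias of the antisymmetric part on valid tuples. -/

set_option linter.all false

open Finset
open scoped BigOperators

namespace Vale.Agent.P057T.Sw

open Vale.Agent.P057L Vale.Agent.P057L.WA Vale.Agent.P057T.Sy
open Vale.Agent.P057T.Ten (cj mix norm_cj)

noncomputable section

variable {V : Type} [AddCommGroup V] {r : ℕ}

/-- insertion of one entry -/
def ins (i : Fin (r + 1)) (x : V) (t : Fin r → V) : Fin (r + 1) → V :=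
  Fin.insertNth (α := fun _ => V) i x t

theorem ins_same (i : Fin (r + 1)) (x : V) (t : Fin r → V) : ins i x t i = x :=
  Fin.insertNth_apply_same (α := fun _ => V) i x t

theorem ins_succ (i : Fin (r + 1)) (x : V) (t : Fin r → V) (l : Fin r) :
    ins i x t (i.succAbove l) = t l :=
  Fin.insertNth_apply_succAbove (α := fun _ => V) i x t l

theorem ins_ext (i : Fin (r + 1)) {W W' : Fin (r + 1) → V} (h0 : W i = W' i)
    (h : ∀ l, W (i.succAbove l) = W' (i.succAbove l)) : W = W' := by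
  funext k
  exact Fin.succAboveCases (α := fun k => W k = W' k) i h0 h k

theorem ins_upd (i : Fin (r + 1)) (x y : V) (t : Fin r → V) :
    Function.update (ins i x t) i y = ins i y t :=
  Fin.update_insertNth (α := fun _ => V) i x y t

theorem ins_upd' (i : Fin (r + 1)) (x y : V) (t : Fin r → V) (l : Fin r) :
    ins i x (Function.update t l y) = Function.update (ins i x t) (i.succAbove l) y :=
  Fin.insertNth_update (α := fun _ => V) i x l y t

theorem sum_ins {M : Type} [AddCommMonoid M] (i : Fin (r + 1)) (X : Finset V)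
    (f : (Fin (r + 1) → V) → M) :
    ∑ W ∈ Fintype.piFinset (fun _ : Fin (r + 1) => X), f W =
      ∑ t ∈ Fintype.piFinset (fun _ : Fin r => X), ∑ x ∈ X, f (ins i x t) := by
  classical
  rw [← sum_product']
  refine sum_nbij' (fun W => (fun l => W (i.succAbove l), W i)) (fun p => ins i p.2 p.1)
    ?_ ?_ ?_ ?_ ?_
  · intro W hW
    exact mem_product.2 ⟨Fintype.mem_piFinset.2 fun l => Fintype.mem_piFinset.1 hW _,
      Fintype.mem_piFinset.1 hW _⟩
  · intro p hp
    obtain ⟨h1, h2⟩ := mem_product.1 hp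
    refine Fintype.mem_piFinset.2 fun k => Fin.succAboveCases (α := fun k => ins i p.2 p.1 k ∈ X)
      i ?_ (fun l => ?_) k
    · rw [ins_same]; exact h2
    · rw [ins_succ]; exact Fintype.mem_piFinset.1 h1 l
  · intro W _
    exact ins_ext i (ins_same _ _ _) fun l => ins_succ _ _ _ _
  · intro p _
    exact Prod.ext (funext fun l => ins_succ _ _ _ _) (ins_same _ _ _)
  · intro W _
    congr 1
    exact ins_ext i (ins_same _ _ _).symm fun l => (ins_succ i (W i) (fun l => W (i.succAbove l)) l).symm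

theorem pw_ins (i : Fin (r + 1)) (x x1 : V) (t t1 : Fin r → V) (J : Finset (Fin (r + 1))) :
    J.piecewise (ins i x t1) (ins i x1 t) =
      ins i (if i ∈ J then x else x1) (mix (fun l => decide (i.succAbove l ∉ J)) t t1) := by
  refine ins_ext i ?_ fun l => ?_
  · by_cases h : i ∈ J <;> simp [h, ins_same]
  · by_cases h : i.succAbove l ∈ J <;> simp [h, ins_succ, mix]

theorem dl_ins (i : Fin (r + 1)) (x x1 : V) (t t1 : Fin r → V) (f : (Fin (r + 1) → V) → ℝ) :
    Val.dl univ (fun J => f (J.piecewise (ins i x t1) (ins i x1 t))) =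
      ∑ e : Fin r → Bool, sg e * f (ins i x (mix e t t1)) -
        ∑ e : Fin r → Bool, sg e * f (ins i x1 (mix e t t1)) := by
  have cd : ∀ J : Finset (Fin (r + 1)), (univ \ J).card =
      (if i ∈ J then 0 else 1) + ∑ l, if decide (i.succAbove l ∉ J) then 1 else 0 := fun J => by
    have : (univ \ J).card = ∑ k, if k ∈ J then 0 else 1 := by
      rw [card_eq_sum_ones, ← sum_filter_not_add_sum_filter univ (· ∈ J)]
      rw [sum_congr rfl fun k hk => if_neg (mem_filter.1 hk).2,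
        sum_eq_zero (s := univ.filter (· ∈ J)) fun k hk => if_pos (mem_filter.1 hk).2, add_zero]
      congr 1
      ext k; simp
    rw [this, Fin.sum_univ_succAbove _ i]
    congr 1
    refine sum_congr rfl fun l _ => ?_
    by_cases h : i.succAbove l ∈ J <;> simp [h]
  have e1 : ∑ e : Fin r → Bool, sg e * f (ins i x (mix e t t1)) -
      ∑ e : Fin r → Bool, sg e * f (ins i x1 (mix e t t1)) =
      ∑ p : Bool × (Fin r → Bool), (if p.1 then 1 else -1) * sg p.2 *
        f (ins i (if p.1 then x else x1) (mix p.2 t t1)) := by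
    rw [Fintype.sum_prod_type, Fintype.sum_bool, sub_eq_add_neg, ← sum_neg_distrib]
    simp
  rw [e1, Val.dl, powerset_univ]
  refine sum_nbij' (fun J => (decide (i ∈ J), fun l => decide (i.succAbove l ∉ J)))
    (fun p => univ.filter fun k => Fin.insertNth (α := fun _ => Bool) i p.1 (fun l => !p.2 l) k)
    (by simp) (by simp) ?_ ?_ ?_
  · intro J _
    ext k
    refine Fin.succAboveCases (α := fun k => k ∈ univ.filter (fun k =>
      Fin.insertNth (α := fun _ => Bool) i (decide (i ∈ J))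
        (fun l => !decide (i.succAbove l ∉ J)) k = true) ↔ k ∈ J) i ?_ (fun l => ?_) k
    · simp
    · simp
  · intro p _
    refine Prod.ext ?_ (funext fun l => ?_)
    · simp
    · simp
  · intro J _
    rw [pw_ins, cd, pow_add]
    by_cases h : i ∈ J <;> simp [h, sg]

theorem sum_le_inj {α β : Type} (A : Finset α) (B : Finset β) (φ : α → β) (hi : Set.InjOn φ A)
    (hB : ∀ a ∈ A, φ a ∈ B) (F : β → ℂ) (h0 : ∀ b ∈ B, F b ≠ 0 → ∃ a ∈ A, φ a = b) :
    ∑ a ∈ A, F (φ a) = ∑ b ∈ B, F b := by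
  classical
  rw [← sum_image hi]
  refine sum_subset (fun b hb => ?_) fun b hb hn => ?_
  · obtain ⟨a, ha, rfl⟩ := mem_image.1 hb
    exact hB a ha
  · by_contra h
    obtain ⟨a, ha, e⟩ := h0 b hb h
    exact hn (mem_image.2 ⟨a, ha, e⟩)

/-- **bias of the antisymmetric part**. The weights are indicators of valid tuples, the first
misses the class of `s`, the second misses the class `i`. -/
theorem f2a (X Y T Z D : Finset V) (hX : X.Nonempty) (hT : ∀ x ∈ X, ∀ y ∈ Y, x + y ∈ T)
    (hZ : ∀ x ∈ X, ∀ y ∈ Y, y - x ∈ Z) (hD : ∀ x ∈ X, ∀ y ∈ X, x - y ∈ D)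
    (Om Vd : (Fin (r + 1) → V) → Prop) (ψ χ : (Fin (r + 1) → V) → V →+ ℝ)
    (val : ∀ W W' : Fin (r + 1) → V, (∀ J : Finset (Fin (r + 1)), Om (J.piecewise W W')) →
      Vd (W - W') ∧ ∀ s, Val.dl univ (fun J => ψ (J.piecewise W W') s) = χ (W - W') s)
    (i : Fin (r + 1)) (g : (Fin (r + 1) → V) → V → ℂ) (u : (Fin (r + 1) → V) → ℂ)
    (c : Fin (r + 1) → (Fin (r + 1) → V) → V → ℂ) (hg : ∀ W s, ‖g W s‖ ≤ 1)
    (gi : ∀ W a s, g (Function.update W i a) s = g W s) (hu : ∀ W, ‖u W‖ ≤ 1)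
    (u0 : ∀ W, ¬Om W → u W = 0) (h1 : ∀ k W s, ‖c k W s‖ ≤ 1)
    (h2 : ∀ k W a s, c k (Function.update W k a) s = c k W s) {δ : ℝ} (h0 : 0 ≤ δ)
    (h : δ * ((X.card : ℝ) ^ (r + 1) * Y.card) ≤
      ‖∑ W ∈ Fintype.piFinset (fun _ : Fin (r + 1) => X), ∑ s ∈ Y,
        u W * g W (W i + s) * ee (ψ W s) * ∏ k, c k W s‖) :
    ∃ E1 E2 : (Fin (r + 1) → V) → Prop, (∀ h, E1 h → Vd h) ∧ (∀ h, E2 h → Vd h) ∧
      δ ^ (2 ^ r * 8) * ((X.card : ℝ) * Y.card) ^ 8 * (X.card : ℝ) ^ r ≤
        ((T.card : ℝ) * Z.card * X.card) ^ 4 * (X.card : ℝ) ^ 2 *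
          (∑ h ∈ Fintype.piFinset (fun _ : Fin (r + 1) => D), ∑ s ∈ D,
            ind (E1 h) * ind (E2 (Function.update h i s)) *
              ee (χ h s - χ (Function.update h i s) (h i))).re := by
  classical
  obtain ⟨t1, ht1, x1, hx1, y1, hy1, key⟩ := sw X hX X Y T Z hX hT hZ
    (fun t x => Om (ins i x t)) (fun t x => ψ (ins i x t)) (fun t s => g (ins i 0 t) s)
    (fun t s => c i (ins i 0 t) s) (fun t x => u (ins i x t))
    (fun l t z => c (i.succAbove l) (ins i z.1 t) z.2) (fun _ _ => hg _ _) (fun _ _ => h1 _ _ _)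
    (fun _ _ => hu _) (fun _ _ h => u0 _ h) (fun _ _ _ => h1 _ _ _)
    (fun l t a z => by rw [ins_upd', h2]) h0 (by
      rw [sum_ins i] at h
      refine le_trans (le_of_eq (by ring)) (h.trans (le_of_eq (congrArg norm ?_)))
      refine sum_congr rfl fun t _ => sum_congr rfl fun x _ => sum_congr rfl fun y _ => ?_
      rw [Fin.prod_univ_succAbove _ i, ins_same, ← ins_upd i x 0 t, gi, h2]
      ring)
  let E : V → (Fin (r + 1) → V) → Prop := fun a h => ∃ x ∈ X,
    ∃ t ∈ Fintype.piFinset (fun _ : Fin r => X), h = ins i (x - a) (t1 - t) ∧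
      ((∀ e, Om (ins i x (mix e t t1))) ∧ ∀ e, Om (ins i a (mix e t t1)))
  have sb : ∀ (x a : V) (t : Fin r → V), ins i x t1 - ins i a t = ins i (x - a) (t1 - t) :=
    fun x a t => ins_ext i (by simp [ins_same]) fun l => by simp [ins_succ]
  have vl : ∀ (x a : V) (t : Fin r → V),
      ((∀ e, Om (ins i x (mix e t t1))) ∧ ∀ e, Om (ins i a (mix e t t1))) →
      Vd (ins i (x - a) (t1 - t)) ∧ ∀ s, (Dl (fun t x => ψ (ins i x t)) t t1 x -
        Dl (fun t x => ψ (ins i x t)) t t1 a) s = χ (ins i (x - a) (t1 - t)) s := by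
    intro x a t ho
    obtain ⟨v1, v2⟩ := val (ins i x t1) (ins i a t) fun J => by
      rw [pw_ins]
      split_ifs
      · exact ho.1 _
      · exact ho.2 _
    rw [sb] at v1 v2
    refine ⟨v1, fun s => ?_⟩
    rw [← v2, dl_ins i x a t t1 fun W => ψ W s, AddMonoidHom.sub_apply, Dl_apply, Dl_apply]
  have inj : ∀ {x x' a : V} {t t' : Fin r → V}, ins i (x - a) (t1 - t) = ins i (x' - a) (t1 - t') →
      x = x' ∧ t = t' := fun {x x' a t t'} e => by
    refine ⟨?_, funext fun l => ?_⟩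
    · have := congrFun e i
      rwa [ins_same, ins_same, sub_left_inj] at this
    · have := congrFun e (i.succAbove l)
      rwa [ins_succ, ins_succ, Pi.sub_apply, Pi.sub_apply, sub_right_inj] at this
  have iff : ∀ a, ∀ x ∈ X, ∀ t ∈ Fintype.piFinset (fun _ : Fin r => X),
      E a (ins i (x - a) (t1 - t)) ↔
        ((∀ e, Om (ins i x (mix e t t1))) ∧ ∀ e, Om (ins i a (mix e t t1))) := by
    intro a x hx t ht
    refine ⟨fun ⟨x', _, t', _, e, ho⟩ => ?_, fun ho => ⟨x, hx, t, ht, rfl, ho⟩⟩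
    obtain ⟨rfl, rfl⟩ := inj e
    exact ho
  refine ⟨E x1, E y1, ?_, ?_, key.trans (le_of_eq ?_)⟩
  · rintro _ ⟨x, _, t, _, rfl, ho⟩
    exact (vl x x1 t ho).1
  · rintro _ ⟨x, _, t, _, rfl, ho⟩
    exact (vl x y1 t ho).1
  congr 2
  rw [← sum_product' (s := Fintype.piFinset fun _ : Fin (r + 1) => D),
    ← sum_le_inj (Fintype.piFinset (fun _ : Fin r => X) ×ˢ X ×ˢ X) _
    (fun p => (ins i (p.2.1 - x1) (t1 - p.1), p.2.2 - y1)) ?_ ?_ _ ?_]
  · rw [sum_product]
    refine sum_congr rfl fun t ht => ?_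
    rw [sum_product]
    refine sum_congr rfl fun x hx => sum_congr rfl fun y hy => ?_
    simp only [ins_upd, ins_same]
    rw [propext (iff x1 x hx t ht), propext (iff y1 y hy t ht)]
    by_cases a : (∀ e, Om (ins i x (mix e t t1))) ∧ ∀ e, Om (ins i x1 (mix e t t1))
    · by_cases b : (∀ e, Om (ins i y (mix e t t1))) ∧ ∀ e, Om (ins i y1 (mix e t t1))
      · rw [(vl x x1 t a).2, (vl y y1 t b).2]
      · rw [ind_neg b, mul_zero, zero_mul, zero_mul]
    · rw [ind_neg a, zero_mul, zero_mul, zero_mul]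
  · intro p _ q _ e
    obtain ⟨e1, e2⟩ := Prod.mk.inj e
    obtain ⟨e3, e4⟩ := inj e1
    exact Prod.ext e4 (Prod.ext e3 (sub_left_inj.1 e2))
  · intro p hp
    obtain ⟨a1, a2⟩ := mem_product.1 hp
    obtain ⟨a2, a3⟩ := mem_product.1 a2
    refine mem_product.2 ⟨Fintype.mem_piFinset.2 fun k => Fin.succAboveCases
      (α := fun k => ins i (p.2.1 - x1) (t1 - p.1) k ∈ D) i ?_ (fun l => ?_) k, hD _ a3 _ hy1⟩
    · rw [ins_same]; exact hD _ a2 _ hx1
    · rw [ins_succ]
      exact hD _ (Fintype.mem_piFinset.1 ht1 l) _ (Fintype.mem_piFinset.1 a1 l)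
  · rintro ⟨h, s⟩ _ hn
    have n1 : E x1 h := by
      by_contra a
      exact hn (by simp only [ind_neg a, zero_mul])
    have n2 : E y1 (Function.update h i s) := by
      by_contra a
      exact hn (by simp only [ind_neg a, zero_mul, mul_zero])
    obtain ⟨x, hx, t, ht, rfl, -⟩ := n1
    obtain ⟨y, hy, t', -, e, -⟩ := n2
    refine ⟨(t, x, y), mem_product.2 ⟨ht, mem_product.2 ⟨hx, hy⟩⟩, Prod.ext rfl ?_⟩
    have := congrFun e i
    rw [Function.update_self, ins_same] at this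
    exact this.symm

end

end Vale.Agent.P057T.Sw
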