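import Vale.Agent.P057T.Gb.ValH24
import Vale.Agent.P057T.Gb.F2aH24

/-! The symmetry step: the top form is symmetric in the classes `0` and `i` on valid tuples. -/

set_option linter.all false

open Finset
open scoped BigOperators

namespace Vale.Agent.P057T.Loc.H24

open Vale.Agent.P057Z Vale.Agent.P057L Vale.Agent.P057T.Gkh
open Vale.Agent.P057T.Val (dl)

noncomputable section

variable {j q : ℕ}

/-- the form on all classes -/
def ch (χ : Pt j q → Fin q → ℝ) (W : Pt (j + 1) q) : ℝ := dt (χ (Fin.tail W)) (W 0)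

/-- correlation with a function of the sum forces symmetry in the classes `0` and `i.succ` -/
def F2 (r : ℕ) : Prop :=
  ∃ C : ℕ, ∀ (Y : ℝ) (q N : ℕ) (Lt : List (Cd (r + 1) q)) (χ F : Pt (r + 1) q → Fin q → ℝ)
    (Om : Pt (r + 1) q → Prop) (i : Fin (r + 1)) (g : Pt (r + 1) q → Vz q → ℂ)
    (u : Pt (r + 1) q → ℂ) (c : Fin (r + 1) → Pt (r + 1) q → Vz q → ℂ),
    Sz C Y q N → (Lt.length : ℝ) ≤ Y → TT Lt → (∀ l, Top Lt univ fun x => χ x l) →
    (∀ W W' : Pt (r + 1) q, (∀ J : Finset (Fin (r + 1)), Om (J.piecewise W W')) →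
      Vl Lt (1 / 8) (W - W') ∧ ∀ l, dl univ (fun J => F (J.piecewise W W') l) = χ (W - W') l) →
    (∀ W s, ‖g W s‖ ≤ 1) → (∀ W a s, g (Function.update W i a) s = g W s) → (∀ W, ‖u W‖ ≤ 1) →
    (∀ W, ¬Om W → u W = 0) → (∀ k W s, ‖c k W s‖ ≤ 1) →
    (∀ k W a s, c k (Function.update W k a) s = c k W s) →
    Real.exp (-Y) * (N : ℝ) ^ ((r + 2) * q) ≤
      ‖∑ W ∈ bp (r + 1) q N, ∑ s ∈ bz q N,
        u W * g W (W i + s) * ee (dt (F W) s) * ∏ k, c k W s‖ →
    ∃ L' : List (Cd (r + 2) q), TT L' ∧ tl Lt ⊆ L' ∧ (L'.length : ℝ) ≤ Y ^ C ∧ Pr L' ∧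
      ∀ W, Sh (Real.exp (-Y ^ C) * N) W → Vl L' (Real.exp (-Y ^ C)) W →
        nz (ch χ W - ch χ (W ∘ Equiv.swap 0 i.succ)) ≤ Real.exp (-Y)

/-- the pairing as an additive map -/
def dh (a : Fin q → ℝ) : Vz q →+ ℝ where
  toFun := dt a
  map_zero' := by simp [dt]
  map_add' := fun x y => by simp [dt, mul_add, sum_add_distrib]

theorem tail_swap (i : Fin j) (s : Vz q) (h : Pt j q) :
    Fin.tail ((Fin.cons s h : Pt (j + 1) q) ∘ Equiv.swap 0 i.succ) = Function.update h i s := by
  funext k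
  show (Fin.cons s h : Pt (j + 1) q) (Equiv.swap 0 i.succ k.succ) = _
  by_cases e : k = i
  · subst e
    rw [Equiv.swap_apply_right, Fin.cons_zero, Function.update_self]
  · rw [Equiv.swap_apply_of_ne_of_ne (Fin.succ_ne_zero k) (fun h => e (Fin.succ_injective _ h)),
      Fin.cons_succ, Function.update_of_ne e]

theorem fb_univ (χ : Pt j q → Fin q → ℝ) : (fb univ χ).1 = univ := by
  refine eq_univ_of_forall fun k => Fin.cases (mem_insert_self _ _) (fun k => ?_) k
  exact mem_insert_of_mem (mem_map.2 ⟨k, mem_univ _, rfl⟩)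

theorem ch_top {Lt : List (Cd j q)} {χ : Pt j q → Fin q → ℝ} (h : ∀ l, Top Lt univ fun x => χ x l) :
    Top (tl Lt) univ (ch χ) := TbP.congr' (TbP.fbT h) (fb_univ χ) fun _ => rfl

theorem ind_le (P : Prop) : ‖Sw.ind P‖ ≤ 1 := by
  by_cases p : P <;> simp [Sw.ind, p]

theorem f2 (r : ℕ) (hB : LOCB (r + 1)) : F2 r := by
  classical
  obtain ⟨C, hC⟩ := hB
  refine ⟨2 * C + 8 * 2 ^ r + 8, fun Y q N Lt χ F Om i g u c hs hl hT hχ hv hg gi hu u0 h1 h2 h => ?_⟩
  have c1 := hs.C1
  push_cast at c1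
  have p0 : (0 : ℝ) < 2 ^ r := by positivity
  have C0 : (0 : ℝ) ≤ C := by positivity
  have Y1 : (2 : ℝ) ≤ Y := by linarith
  have pwY : (Y ^ 2) ^ C ≤ Y ^ (2 * C + 8 * 2 ^ r + 8) := by
    rw [← pow_mul]; exact pow_le_pow_right₀ (by linarith) (by omega)
  have N1 : 1 ≤ N := by
    rcases Nat.eq_zero_or_pos N with rfl | hN
    · have := hs.lg
      have h3 : 0 < Y ^ (2 * C + 8 * 2 ^ r + 8) := by positivity
      simp at this
      linarith
    · exact hN
  have N0 : (0 : ℝ) < N := by exact_mod_cast N1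
  have mb : ∀ {M : ℕ} {x : Vz q}, x ∈ bz q M ↔ ∀ i, 0 ≤ x i ∧ x i < M := Vsm.mem_bz
  have ms : ∀ {x : Vz q}, x ∈ sz q N ↔ ∀ i, -(N : ℤ) < x i ∧ x i < N := by
    intro x; simp [sz, sy, Fintype.mem_piFinset]
  have hD : ∀ x ∈ bz q N, ∀ y ∈ bz q N, x - y ∈ sz q N := fun x hx y hy => ms.2 fun l => by
    have := mb.1 hx l
    have := mb.1 hy l
    simp only [Pi.sub_apply]
    omega
  have cz : ((sz q N).card : ℝ) ≤ (2 * N) ^ q := by
    rw [sz, Fintype.card_piFinset]
    simp only [sy, Int.card_Ioo, prod_const, card_univ, Fintype.card_fin]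
    push_cast
    refine pow_le_pow_left₀ (by positivity) ?_ _
    have : ((N : ℤ) - -(N : ℤ) - 1).toNat ≤ 2 * N := by omega
    exact_mod_cast this
  obtain ⟨E1, E2, v1, v2, key⟩ := Sw.f2a (bz q N) (bz q N) (bz q (2 * N)) (sz q N) (sz q N)
    (Sy.bz_ne N1) (fun x hx y hy => mb.2 fun l => by
      have := mb.1 hx l
      have := mb.1 hy l
      simp only [Pi.add_apply]
      push_cast
      omega) (fun x hx y hy => hD y hy x hx) hD Om (Vl Lt (1 / 8)) (fun W => dh (F W))
    (fun W => dh (χ W)) (fun W W' ho => ⟨(hv W W' ho).1, fun s => by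
      show dl univ (fun J => ∑ l, F (J.piecewise W W') l * s l) = ∑ l, χ (W - W') l * s l
      rw [Val.dl_sum]
      refine sum_congr rfl fun l _ => ?_
      simp only [mul_comm _ ((s l : ℤ) : ℝ)]
      rw [Val.dl_mul, (hv W W' ho).2 l]⟩) i g u c hg gi hu u0 h1 h2 (δ := Real.exp (-Y))
    (Real.exp_pos _).le (by
      rw [Sy.card_bz]
      push_cast
      refine le_trans (le_of_eq ?_) h
      rw [← pow_succ, ← pow_mul, mul_comm q])
  let σ : Equiv.Perm (Fin (r + 2)) := Equiv.swap 0 i.succ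
  let u' : Fin (r + 2) → Pt (r + 2) q → ℂ := fun k W =>
    (if k = 0 then Sw.ind (E1 (Fin.tail W)) else 1) *
      if k = i.succ then Sw.ind (E2 (Fin.tail (W ∘ σ))) else 1
  have pu : ∀ W, ∏ k, u' k W = Sw.ind (E1 (Fin.tail W)) * Sw.ind (E2 (Fin.tail (W ∘ σ))) := by
    intro W
    simp only [u', prod_mul_distrib, prod_ite_eq', mem_univ, if_true]
  have pr0 : Pr (tl Lt) := rn_pr' (Fin.succEmb _) 0 fun k => Fin.succ_ne_zero k
  obtain ⟨L', a1, a2, a3, a4, a5⟩ := hC (Y ^ 2) q N (tl Lt ++ rn σ.toEmbedding (tl Lt))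
    (fun W => ch χ W - ch χ (W ∘ σ)) u'
    ⟨by nlinarith, hs.q1, by nlinarith [hs.qY], pwY.trans hs.lg⟩ (by omega)
    (by
      rw [List.length_append, rn_len, tl, List.length_map]
      push_cast
      nlinarith)
    (TbP.app (TbP.tlT hT) (rnT _ (TbP.tlT hT))) (pr_app pr0 (rn_pr _ pr0))
    (TbP.congr' (Top.add (TbP.wk (List.subset_append_left _ _) (ch_top hχ))
      (TbP.smul (-1) (TbP.wk (List.subset_append_right _ _) (TbP.congr'
        (rnF σ.toEmbedding (ch_top hχ)) (Finset.map_univ_equiv σ) fun _ => rfl)))) rfl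
      fun W => by rw [neg_one_mul, ← sub_eq_add_neg]; rfl)
    (fun k W => Sy.n2 (by split_ifs; exact ind_le _; simp) (by split_ifs; exact ind_le _; simp))
    (fun k W a => by
      simp only [u']
      congr 1
      · split_ifs with e
        · subst e; rw [Fin.tail_update_zero]
        · rfl
      · split_ifs with e
        · subst e
          congr 2
          funext k
          show Function.update W i.succ a (σ k.succ) = W (σ k.succ)
          refine Function.update_of_ne (fun e => Fin.succ_ne_zero k ?_) _ _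
          rw [← Equiv.swap_apply_left 0 i.succ] at e
          exact σ.injective e
        · rfl)
    (fun W hW => by
      rw [pu] at hW
      refine vl_app.2 ⟨(rn_vl (Fin.succEmb _) _ _).2 (v1 _ ?_),
        (rn_vl _ _ _).2 ((rn_vl (Fin.succEmb _) _ _).2 (v2 _ ?_))⟩
      · by_contra a
        exact hW (by rw [Sw.ind_neg (P := E1 (Fin.tail W)) a, zero_mul])
      · by_contra a
        exact hW (by rw [Sw.ind_neg (P := E2 (Fin.tail (W ∘ σ))) a, mul_zero]))
    (by
      have e : ∑ W ∈ Fintype.piFinset (fun _ : Fin (r + 1 + 1) => sz q N),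
          (∏ k, u' k W) * ee (ch χ W - ch χ (W ∘ σ)) =
          ∑ h ∈ Fintype.piFinset (fun _ : Fin (r + 1) => sz q N), ∑ s ∈ sz q N,
            Sw.ind (E1 h) * Sw.ind (E2 (Function.update h i s)) *
              WA.ee (dh (χ h) s - dh (χ (Function.update h i s)) (h i)) := by
        rw [Sw.sum_ins 0]
        refine sum_congr rfl fun h _ => sum_congr rfl fun s _ => ?_
        have : Sw.ins 0 s h = Fin.cons s h := Fin.insertNth_zero' s h
        rw [pu, this, ch, ch, tail_swap, Fin.tail_cons, Fin.cons_zero, Function.comp_apply,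
          Equiv.swap_apply_left, Fin.cons_succ]
        rfl
      rw [e]
      refine le_trans ?_ (Complex.re_le_norm _)
      rw [Sy.card_bz, Sy.card_bz] at key
      push_cast at key
      generalize (∑ h ∈ Fintype.piFinset (fun _ : Fin (r + 1) => sz q N), ∑ s ∈ sz q N,
        Sw.ind (E1 h) * Sw.ind (E2 (Function.update h i s)) *
          WA.ee (dh (χ h) s - dh (χ (Function.update h i s)) (h i))).re = R at key ⊢
      have e1 : (N : ℝ) ^ ((r + 1 + 1) * q) = ((N : ℝ) ^ q) ^ (r + 2) := by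
        rw [← pow_mul, mul_comm]
      rw [e1]
      rw [mul_pow] at cz
      rw [mul_pow 2] at key
      have M0 : 0 < (N : ℝ) ^ q := pow_pos N0 q
      generalize (N : ℝ) ^ q = M at cz key M0 ⊢
      have t1 : (2 : ℝ) ^ q ≤ Real.exp Y := by
        refine le_trans ?_ (Real.exp_le_exp.2 hs.qY)
        rw [← mul_one (q : ℝ), Real.exp_nat_mul]
        exact pow_le_pow_left₀ (by norm_num) (by linarith [Real.add_one_le_exp 1]) _
      have t0 : (0 : ℝ) < 2 ^ q := by positivity
      generalize (2 : ℝ) ^ q = E at cz key t1 t0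
      have R0 : 0 ≤ R := by
        by_contra hR
        have := mul_nonpos_of_nonneg_of_nonpos
          (by positivity : 0 ≤ (E * M * ((sz q N).card : ℝ) * M) ^ 4 * M ^ 2) (not_le.1 hR).le
        have h3 : 0 < Real.exp (-Y) ^ (2 ^ r * 8) * (M * M) ^ 8 * M ^ r := by positivity
        linarith
      have k2 := key.trans (mul_le_mul_of_nonneg_right (mul_le_mul_of_nonneg_right
        (pow_le_pow_left₀ (by positivity) (show E * M * ((sz q N).card : ℝ) * M ≤
          Real.exp Y * M * (Real.exp Y * M) * M by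
            have := cz.trans (mul_le_mul_of_nonneg_right t1 M0.le)
            gcongr) 4) (by positivity)) R0)
      have t2 : Real.exp (-Y ^ 2) * Real.exp Y ^ 8 ≤ Real.exp (-Y) ^ (2 ^ r * 8) := by
        rw [← Real.exp_nat_mul, ← Real.exp_nat_mul, ← Real.exp_add]
        refine Real.exp_le_exp.2 ?_
        push_cast
        nlinarith
      refine le_of_mul_le_mul_left ?_ (by positivity : 0 < Real.exp Y ^ 8 * M ^ 14)
      have k3 := mul_le_mul_of_nonneg_right t2 (by positivity : 0 ≤ (M * M) ^ 8 * M ^ r)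
      calc _ = Real.exp (-Y ^ 2) * Real.exp Y ^ 8 * ((M * M) ^ 8 * M ^ r) := by ring
        _ ≤ _ := k3
        _ = Real.exp (-Y) ^ (2 ^ r * 8) * (M * M) ^ 8 * M ^ r := by ring
        _ ≤ _ := k2
        _ = _ := by ring)
  refine ⟨L', a1, List.Subset.trans (List.subset_append_left _ _) a2, a3.trans pwY, a4, fun W b1 b2 => ?_⟩
  have m : Real.exp (-Y ^ (2 * C + 8 * 2 ^ r + 8)) ≤ Real.exp (-(Y ^ 2) ^ C) :=
    Real.exp_le_exp.2 (neg_le_neg pwY)
  exact (a5 W (fun k l => (b1 k l).trans (mul_le_mul_of_nonneg_right m N0.le))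
    fun p hp => (b2 p hp).trans m).trans (Real.exp_le_exp.2 (by nlinarith))

end

end Vale.Agent.P057T.Loc.H24
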