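import Vale.Agent.P057T.Gb.Defs
import Vale.Agent.P057T.Gb.F2H24

/-! Row F2: the swap of two classes. -/

set_option linter.all false

open Finset
open scoped BigOperators

namespace Vale.Agent.P057T.Gb

open Vale.Agent.P057Z Vale.Agent.P057L Vale.Agent.P057T.Gkh Vale.Agent.P057T.Loc
open Vale.Agent.P057T.Loc.H24 (dh ch tail_swap ind_le)
open Vale.Agent.P057T.Val (dl)

noncomputable section

namespace F2P

theorem bi0 {r q N : ℕ} {Y : ℝ} (c1 : 8 * 2 ^ r + 8 ≤ Y) (hq : (q : ℝ) ≤ Y) (N1 : 1 ≤ N)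
    (Om Vd : Pt (r + 1) q → Prop) (χ F : Pt (r + 1) q → Fin q → ℝ) (i : Fin (r + 1))
    (g : Pt (r + 1) q → Vz q → ℂ) (u : Pt (r + 1) q → ℂ)
    (c : Fin (r + 1) → Pt (r + 1) q → Vz q → ℂ)
    (hv : ∀ W W' : Pt (r + 1) q, (∀ J : Finset (Fin (r + 1)), Om (J.piecewise W W')) →
      Vd (W - W') ∧ ∀ l, dl univ (fun J => F (J.piecewise W W') l) = χ (W - W') l)
    (hg : ∀ W s, ‖g W s‖ ≤ 1) (gi : ∀ W a s, g (Function.update W i a) s = g W s)
    (hu : ∀ W, ‖u W‖ ≤ 1) (u0 : ∀ W, ¬Om W → u W = 0) (h1 : ∀ k W s, ‖c k W s‖ ≤ 1)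
    (h2 : ∀ k W a s, c k (Function.update W k a) s = c k W s)
    (h : Real.exp (-Y) * (N : ℝ) ^ ((r + 2) * q) ≤
      ‖∑ W ∈ bp (r + 1) q N, ∑ s ∈ bz q N,
        u W * g W (W i + s) * ee (dt (F W) s) * ∏ k, c k W s‖) :
    ∃ u' : Fin (r + 2) → Pt (r + 2) q → ℂ, (∀ k W, ‖u' k W‖ ≤ 1) ∧ (∀ k, Ig (u' k) k) ∧
      (∀ W, ∏ k, u' k W ≠ 0 → Vd (Fin.tail W) ∧ Vd (Fin.tail (W ∘ Equiv.swap 0 i.succ))) ∧
      Real.exp (-Y ^ 2) * (N : ℝ) ^ ((r + 1 + 1) * q) ≤
        ‖∑ W ∈ Fintype.piFinset (fun _ : Fin (r + 1 + 1) => sz q N), (∏ k, u' k W) *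
          ee (ch χ W - ch χ (W ∘ Equiv.swap 0 i.succ))‖ := by
  classical
  have p0 : (0 : ℝ) < 2 ^ r := by positivity
  have Y1 : (2 : ℝ) ≤ Y := by linarith
  have N0 : (0 : ℝ) < N := by exact_mod_cast N1
  have mb : ∀ {M : ℕ} {x : Vz q}, x ∈ bz q M ↔ ∀ i, 0 ≤ x i ∧ x i < M := Vsm.mem_bz
  have ms : ∀ {x : Vz q}, x ∈ sz q N ↔ ∀ i, -(N : ℤ) < x i ∧ x i < N := by
    intro x; simp [sz, sy, Fintype.mem_piFinset]
  have hD : ∀ x ∈ bz q N, ∀ y ∈ bz q N, x - y ∈ sz q N := fun x hx y hy => ms.2 fun l => by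
    have := mb.1 hx l
    have := mb.1 hy l
    simp only [Pi.sub_apply]
    omega
  have cz : ((sz q N).card : ℝ) ≤ (2 * N) ^ q := by
    rw [sz, Fintype.card_piFinset]
    simp only [sy, Int.card_Ioo, prod_const, card_univ, Fintype.card_fin]
    push_cast
    refine pow_le_pow_left₀ (by positivity) ?_ _
    have : ((N : ℤ) - -(N : ℤ) - 1).toNat ≤ 2 * N := by omega
    exact_mod_cast this
  obtain ⟨E1, E2, v1, v2, key⟩ := Sw.f2a (bz q N) (bz q N) (bz q (2 * N)) (sz q N) (sz q N)
    (Sy.bz_ne N1) (fun x hx y hy => mb.2 fun l => by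
      have := mb.1 hx l
      have := mb.1 hy l
      simp only [Pi.add_apply]
      push_cast
      omega) (fun x hx y hy => hD y hy x hx) hD Om Vd (fun W => dh (F W))
    (fun W => dh (χ W)) (fun W W' ho => ⟨(hv W W' ho).1, fun s => by
      show dl univ (fun J => ∑ l, F (J.piecewise W W') l * s l) = ∑ l, χ (W - W') l * s l
      rw [Val.dl_sum]
      refine sum_congr rfl fun l _ => ?_
      simp only [mul_comm _ ((s l : ℤ) : ℝ)]
      rw [Val.dl_mul, (hv W W' ho).2 l]⟩) i g u c hg gi hu u0 h1 h2 (δ := Real.exp (-Y))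
    (Real.exp_pos _).le (by
      rw [Sy.card_bz]
      push_cast
      refine le_trans (le_of_eq ?_) h
      rw [← pow_succ, ← pow_mul, mul_comm q])
  let σ : Equiv.Perm (Fin (r + 2)) := Equiv.swap 0 i.succ
  let u' : Fin (r + 2) → Pt (r + 2) q → ℂ := fun k W =>
    (if k = 0 then Sw.ind (E1 (Fin.tail W)) else 1) *
      if k = i.succ then Sw.ind (E2 (Fin.tail (W ∘ σ))) else 1
  have pu : ∀ W, ∏ k, u' k W = Sw.ind (E1 (Fin.tail W)) * Sw.ind (E2 (Fin.tail (W ∘ σ))) := by
    intro W
    simp only [u', prod_mul_distrib, prod_ite_eq', mem_univ, if_true]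
  exact ⟨u',
    (fun k W => Sy.n2 (by split_ifs; exact ind_le _; simp) (by split_ifs; exact ind_le _; simp)),
    (fun k W a => by
      simp only [u']
      congr 1
      · split_ifs with e
        · subst e; rw [Fin.tail_update_zero]
        · rfl
      · split_ifs with e
        · subst e
          congr 2
          funext k
          show Function.update W i.succ a (σ k.succ) = W (σ k.succ)
          refine Function.update_of_ne (fun e => Fin.succ_ne_zero k ?_) _ _
          rw [← Equiv.swap_apply_left 0 i.succ] at e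
          exact σ.injective e
        · rfl),
    (fun W hW => by
      rw [pu] at hW
      refine ⟨v1 _ ?_, v2 _ ?_⟩
      · by_contra a
        exact hW (by rw [Sw.ind_neg (P := E1 (Fin.tail W)) a, zero_mul])
      · by_contra a
        exact hW (by rw [Sw.ind_neg (P := E2 (Fin.tail (W ∘ σ))) a, mul_zero])),
    (by
      have e : ∑ W ∈ Fintype.piFinset (fun _ : Fin (r + 1 + 1) => sz q N),
          (∏ k, u' k W) * ee (ch χ W - ch χ (W ∘ σ)) =
          ∑ h ∈ Fintype.piFinset (fun _ : Fin (r + 1) => sz q N), ∑ s ∈ sz q N,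
            Sw.ind (E1 h) * Sw.ind (E2 (Function.update h i s)) *
              WA.ee (dh (χ h) s - dh (χ (Function.update h i s)) (h i)) := by
        rw [Sw.sum_ins 0]
        refine sum_congr rfl fun h _ => sum_congr rfl fun s _ => ?_
        have : Sw.ins 0 s h = Fin.cons s h := Fin.insertNth_zero' s h
        rw [pu, this, H24.ch, H24.ch, tail_swap, Fin.tail_cons, Fin.cons_zero, Function.comp_apply,
          Equiv.swap_apply_left, Fin.cons_succ]
        rfl
      rw [e]
      refine le_trans ?_ (Complex.re_le_norm _)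
      rw [Sy.card_bz, Sy.card_bz] at key
      push_cast at key
      generalize (∑ h ∈ Fintype.piFinset (fun _ : Fin (r + 1) => sz q N), ∑ s ∈ sz q N,
        Sw.ind (E1 h) * Sw.ind (E2 (Function.update h i s)) *
          WA.ee (dh (χ h) s - dh (χ (Function.update h i s)) (h i))).re = R at key ⊢
      have e1 : (N : ℝ) ^ ((r + 1 + 1) * q) = ((N : ℝ) ^ q) ^ (r + 2) := by
        rw [← pow_mul, mul_comm]
      rw [e1]
      rw [mul_pow] at cz
      rw [mul_pow 2] at key
      have M0 : 0 < (N : ℝ) ^ q := pow_pos N0 q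
      generalize (N : ℝ) ^ q = M at cz key M0 ⊢
      have t1 : (2 : ℝ) ^ q ≤ Real.exp Y := by
        refine le_trans ?_ (Real.exp_le_exp.2 hq)
        rw [← mul_one (q : ℝ), Real.exp_nat_mul]
        exact pow_le_pow_left₀ (by norm_num) (by linarith [Real.add_one_le_exp 1]) _
      have t0 : (0 : ℝ) < 2 ^ q := by positivity
      generalize (2 : ℝ) ^ q = E at cz key t1 t0
      have R0 : 0 ≤ R := by
        by_contra hR
        have := mul_nonpos_of_nonneg_of_nonpos
          (by positivity : 0 ≤ (E * M * ((sz q N).card : ℝ) * M) ^ 4 * M ^ 2) (not_le.1 hR).le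
        have h3 : 0 < Real.exp (-Y) ^ (2 ^ r * 8) * (M * M) ^ 8 * M ^ r := by positivity
        linarith
      have k2 := key.trans (mul_le_mul_of_nonneg_right (mul_le_mul_of_nonneg_right
        (pow_le_pow_left₀ (by positivity) (show E * M * ((sz q N).card : ℝ) * M ≤
          Real.exp Y * M * (Real.exp Y * M) * M by
            have := cz.trans (mul_le_mul_of_nonneg_right t1 M0.le)
            gcongr) 4) (by positivity)) R0)
      have t2 : Real.exp (-Y ^ 2) * Real.exp Y ^ 8 ≤ Real.exp (-Y) ^ (2 ^ r * 8) := by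
        rw [← Real.exp_nat_mul, ← Real.exp_nat_mul, ← Real.exp_add]
        refine Real.exp_le_exp.2 ?_
        push_cast
        nlinarith
      refine le_of_mul_le_mul_left ?_ (by positivity : 0 < Real.exp Y ^ 8 * M ^ 14)
      have k3 := mul_le_mul_of_nonneg_right t2 (by positivity : 0 ≤ (M * M) ^ 8 * M ^ r)
      calc _ = Real.exp (-Y ^ 2) * Real.exp Y ^ 8 * ((M * M) ^ 8 * M ^ r) := by ring
        _ ≤ _ := k3
        _ = Real.exp (-Y) ^ (2 ^ r * 8) * (M * M) ^ 8 * M ^ r := by ring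
        _ ≤ _ := k2
        _ = _ := by ring)⟩

variable {j p m : ℕ}

/-- the copies `c` are replaced by `w` -/
def st (c : Fin j → Fin p) (W0 : Pt j (p * m)) (w : Pt j m) : Pt j (p * m) := fun i x =>
  if (finProdFinEquiv.symm x).1 = c i then w i (finProdFinEquiv.symm x).2 else W0 i x

theorem bk_st (c : Fin j → Fin p) (W0 : Pt j (p * m)) (w : Pt j m) (k : Fin j) (a : Fin p) :
    bk (st c W0 w k) a = if a = c k then w k else bk (W0 k) a := by
  funext l
  by_cases h : a = c k <;> simp [bk, st, h]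

theorem pr_st (c : Fin j → Fin p) (W0 : Pt j (p * m)) (w : Pt j m) : pr c (st c W0 w) = w := by
  funext k
  rw [pr, bk_st, if_pos rfl]

theorem st_st (c : Fin j → Fin p) (W0 : Pt j (p * m)) (w : Pt j m) :
    st c (st c W0 w) (pr c W0) = W0 := by
  funext k x
  by_cases h : (finProdFinEquiv.symm x).1 = c k
  · simp only [st, if_pos h, pr, bk]
    rw [← h, Prod.mk.eta, Equiv.apply_symm_apply]
  · simp only [st, if_neg h]

theorem st_sub (c : Fin j → Fin p) (W0 : Pt j (p * m)) (w w' : Pt j m) :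
    st c W0 w - st c W0 w' = em c (w - w') := by
  funext k x
  by_cases h : (finProdFinEquiv.symm x).1 = c k
  · simp only [Pi.sub_apply, st, em, ib, if_pos h]
  · simp only [Pi.sub_apply, st, em, ib, if_neg h, sub_self]

theorem st_pw (c : Fin j → Fin p) (W0 : Pt j (p * m)) (w w' : Pt j m) (J : Finset (Fin j)) :
    sb J (st c W0 w') (st c W0 w) = st c W0 (J.piecewise w w') := by
  funext k x
  by_cases h : k ∈ J
  · simp only [Gkh.sb, if_pos h, st, piecewise_eq_of_mem _ _ _ h]
  · simp only [Gkh.sb, if_neg h, st, piecewise_eq_of_notMem _ _ _ h]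

theorem frz (c : Fin j → Fin p) (N : ℕ) (Φ : Pt j (p * m) → ℂ) :
    ∑ W0 ∈ bp j (p * m) N, ∑ w ∈ bp j m N, Φ (st c W0 w) =
      (bp j m N).card * ∑ W ∈ bp j (p * m) N, Φ W := by
  have up : ∀ z ∈ bp j (p * m) N ×ˢ bp j m N,
      (st c z.1 z.2, pr c z.1) ∈ bp j (p * m) N ×ˢ bp j m N := by
    intro z hz
    obtain ⟨h1, h2⟩ := mem_product.1 hz
    refine mem_product.2 ⟨Sy.mem_bp.2 fun k => Sy.mem_bz.2 fun x => ?_,
      Sy.mem_bp.2 fun k => Sy.mem_bz.2 fun l => Sy.mem_bz.1 (Sy.mem_bp.1 h1 k) _⟩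
    simp only [st]
    split_ifs
    · exact Sy.mem_bz.1 (Sy.mem_bp.1 h2 k) _
    · exact Sy.mem_bz.1 (Sy.mem_bp.1 h1 k) _
  have : ∑ z ∈ bp j (p * m) N ×ˢ bp j m N, Φ (st c z.1 z.2) =
      ∑ z ∈ bp j (p * m) N ×ˢ bp j m N, Φ z.1 :=
    sum_nbij' (fun z => (st c z.1 z.2, pr c z.1)) (fun z => (st c z.1 z.2, pr c z.1)) up up
      (fun z _ => Prod.ext (st_st _ _ _) (pr_st _ _ _))
      (fun z _ => Prod.ext (st_st _ _ _) (pr_st _ _ _)) fun _ _ => rfl
  rw [sum_product, sum_product] at this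
  rw [this, mul_sum]
  exact sum_congr rfl fun W _ => by simp only [sum_const, nsmul_eq_mul]

end F2P

open F2P in
theorem f2 : ∀ j, F2 j
  | 0 => ⟨0, fun _ _ _ _ _ _ _ _ _ _ _ _ _ _ i => i.elim0⟩
  | r + 1 => by
    classical
    refine ⟨8 * 2 ^ r + 8, fun Y p m N L Lt F X s0 ρ Ω u g c i hs _ hT hX h0 hρ hΩ hu u0 hg h => ?_⟩
    have c1 := hs.C1
    push_cast at c1
    have p0 : (0 : ℝ) < 2 ^ r := by positivity
    have N1 : 1 ≤ N := by
      rcases Nat.eq_zero_or_pos N with rfl | hN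
      · have := hs.lg
        have h3 : 0 < Y ^ (8 * 2 ^ r + 8) := pow_pos (by linarith) _
        simp at this
        linarith
      · exact hN
    have N0 : (0 : ℝ) < N := by exact_mod_cast N1
    obtain ⟨W0, -, hW⟩ := exists_le_of_sum_le (s := bp (r + 1) (p * m) N)
      (f := fun _ => Real.exp (-Y) * (N : ℝ) ^ ((r + 2) * m))
      (g := fun W0 => ‖∑ w ∈ bp (r + 1) m N, ∑ s ∈ bz m N, u (st c W0 w) *
        (∏ c', g c' (s + ∑ k, bk (st c W0 w k) (c' k))) * ee (∑ l, F l (st c W0 w) * (s l : ℝ))‖)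
      (by rw [← card_pos, Sy.card_bp]; positivity) (by
        refine le_trans ?_ (norm_sum_le _ _)
        rw [frz c N fun W => ∑ s ∈ bz m N, u W * (∏ c', g c' (s + ∑ k, bk (W k) (c' k))) *
          ee (∑ l, F l W * (s l : ℝ)), norm_mul, Complex.norm_natCast, sum_const, nsmul_eq_mul,
          Sy.card_bp, Sy.card_bp]
        refine le_trans (le_of_eq ?_) (mul_le_mul_of_nonneg_left h (by positivity))
        push_cast
        ring)
    obtain ⟨u', a1, a2, a3, a4⟩ := bi0 c1 hs.qY N1 (fun w => st c W0 w ∈ Ω)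
      (fun h => Vl Lt (1 / 8) (em c h)) (fun h l => X l (em c h)) (fun w l => F l (st c W0 w)) i
      (fun w v => ∏ c' ∈ univ.filter (fun c' : Fin (r + 1) → Fin p => c' i = c i),
        g c' (v + ∑ k ∈ univ.erase i, bk (st c W0 w k) (c' k)))
      (fun w => u (st c W0 w))
      (fun k w s => if k = i then ∏ c' ∈ univ.filter (fun c' : Fin (r + 1) → Fin p => ¬c' i = c i),
        g c' (s + ∑ k, bk (st c W0 w k) (c' k)) else 1)
      (fun w w' ho => by
        have tp := fun l => (hX l).2 s0 ρ (st c W0 w) (st c W0 w') h0 (by linarith)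
          fun J => by rw [st_pw]; exact hΩ _ (ho J)
        simp only [st_sub, st_pw] at tp
        exact ⟨fun v hv => ((tp ⟨0, hs.q1⟩).1 v hv).trans hρ, fun l => (tp l).2⟩)
      (fun _ _ => Sw.pn _ _ fun _ => hg _ _)
      (fun w a v => prod_congr rfl fun c' _ => by
        congr 2
        refine sum_congr rfl fun k hk => ?_
        rw [bk_st, bk_st, Function.update_of_ne (ne_of_mem_erase hk)])
      (fun _ => hu _) (fun _ hw => u0 _ hw)
      (fun k w s => by
        split_ifs
        · exact Sw.pn _ _ fun _ => hg _ _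
        · simp)
      (fun k w a s => by
        split_ifs with e
        · subst e
          refine prod_congr rfl fun c' hc => ?_
          congr 2
          refine sum_congr rfl fun k' _ => ?_
          rw [bk_st, bk_st]
          by_cases e : k' = k
          · subst e
            rw [if_neg (mem_filter.1 hc).2, if_neg (mem_filter.1 hc).2]
          · rw [Function.update_of_ne e]
        · rfl)
      (hW.trans (le_of_eq (congrArg norm (sum_congr rfl fun w _ => sum_congr rfl fun s _ => by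
        rw [prod_ite_eq' univ i, if_pos (mem_univ i),
          ← prod_filter_mul_prod_filter_not univ (fun c' : Fin (r + 1) → Fin p => c' i = c i)]
        have : ∏ c' ∈ univ.filter (fun c' : Fin (r + 1) → Fin p => c' i = c i),
            g c' (s + ∑ k, bk (st c W0 w k) (c' k)) =
            ∏ c' ∈ univ.filter (fun c' : Fin (r + 1) → Fin p => c' i = c i),
              g c' (w i + s + ∑ k ∈ univ.erase i, bk (st c W0 w k) (c' k)) :=
          prod_congr rfl fun c' hc => by
            rw [← add_sum_erase univ _ (mem_univ i), bk_st, if_pos (mem_filter.1 hc).2]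
            congr 1
            abel
        rw [this]
        simp only [dt]
        ring))))
    refine ⟨u', a1, a2, fun W hW => ?_, le_trans ?_ a4⟩
    · obtain ⟨b1, b2⟩ := a3 W hW
      refine H24.vl_app.2 ⟨fun v hv => ?_, (H24.rn_vl (Equiv.swap 0 i.succ).toEmbedding _ _).2
        fun v hv => ?_⟩
      · obtain ⟨v', hv', rfl⟩ := List.mem_map.1 hv
        exact b1 v' hv'
      · obtain ⟨v', hv', rfl⟩ := List.mem_map.1 hv
        exact b2 v' hv'
    · exact mul_le_mul_of_nonneg_right (Real.exp_le_exp.2 (neg_le_neg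
        (pow_le_pow_right₀ (by linarith) (by omega)))) (by positivity)

end

end Vale.Agent.P057T.Gb
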