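import Vale.Agent.P057T.Gb.PtH69
import Vale.Agent.P057T.Gb.Cel
import Vale.Agent.P057T.Gb.F2H24

/-! Row F2: the swap of two classes on one cell. -/

set_option linter.all false

open Finset
open scoped BigOperators

namespace Vale.Agent.P057T.Gb

open Vale.Agent.P057Z Vale.Agent.P057L Vale.Agent.P057T.Gkh Vale.Agent.P057T.Loc
open Vale.Agent.P057T.Loc.H24 (dh tail_swap ind_le)

noncomputable section

namespace F2c

variable {j p m : ℕ}

/-- replace the copies `c` -/
def rp (c : Fin j → Fin p) (W : Pt j (p * m)) (h : Pt j m) : Pt j (p * m) := fun i x =>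
  if (finProdFinEquiv.symm x).1 = c i then h i (finProdFinEquiv.symm x).2 else W i x

theorem bk_rp (c : Fin j → Fin p) (W : Pt j (p * m)) (h : Pt j m) (k : Fin j) (a : Fin p) :
    bk (rp c W h k) a = if a = c k then h k else bk (W k) a := by
  funext l
  by_cases e : a = c k <;> simp [bk, rp, e]

theorem rp_inv (c : Fin j → Fin p) (W : Pt j (p * m)) (h : Pt j m) :
    rp c (rp c W h) (pr c W) = W ∧ pr c (rp c W h) = h := by
  refine ⟨?_, funext fun k => by rw [pr, bk_rp, if_pos rfl]⟩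
  funext i x
  by_cases e : (finProdFinEquiv.symm x).1 = c i
  · simp only [rp, if_pos e, pr, bk]
    rw [← e]
    exact congrArg (W i) (finProdFinEquiv.apply_symm_apply x)
  · simp only [rp, if_neg e]

theorem rp_sub (c : Fin j → Fin p) (W : Pt j (p * m)) (h h' : Pt j m) :
    rp c W h - rp c W h' = em c (h - h') := by
  funext i x
  simp only [Pi.sub_apply, rp, em, ib]
  split_ifs <;> simp

theorem rp_sb (c : Fin j → Fin p) (W : Pt j (p * m)) (h h' : Pt j m) (J : Finset (Fin j)) :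
    Gkh.sb J (rp c W h') (rp c W h) = rp c W (J.piecewise h h') := by
  funext i x
  by_cases e : i ∈ J <;> simp [Gkh.sb, rp, e]

theorem mb {j q N : ℕ} {W : Pt j q} : W ∈ bp j q N ↔ ∀ k l, W k l ∈ rg N := by
  simp [bp, bz]

theorem resample (c : Fin j → Fin p) (N : ℕ) (Φ : Pt j (p * m) → ℂ) :
    ∑ W ∈ bp j (p * m) N, ∑ h ∈ bp j m N, Φ (rp c W h) =
      ((bp j m N).card : ℂ) * ∑ W ∈ bp j (p * m) N, Φ W := by
  have hm : ∀ z ∈ bp j (p * m) N ×ˢ bp j m N,
      (rp c z.1 z.2, pr c z.1) ∈ bp j (p * m) N ×ˢ bp j m N := fun z hz => by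
    obtain ⟨h1, h2⟩ := mem_product.1 hz
    refine mem_product.2 ⟨mb.2 fun k x => ?_, mb.2 fun k l => mb.1 h1 _ _⟩
    simp only [rp]
    split_ifs
    · exact mb.1 h2 _ _
    · exact mb.1 h1 _ _
  rw [← sum_product' (f := fun W h => Φ (rp c W h)), mul_sum]
  rw [sum_nbij' (t := bp j (p * m) N ×ˢ bp j m N) (g := fun z => Φ z.1)
    (fun z => (rp c z.1 z.2, pr c z.1)) (fun z => (rp c z.1 z.2, pr c z.1)) hm hm
    (fun z _ => Prod.ext (rp_inv c z.1 z.2).1 (rp_inv c z.1 z.2).2)
    (fun z _ => Prod.ext (rp_inv c z.1 z.2).1 (rp_inv c z.1 z.2).2) (fun _ _ => rfl), sum_product]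
  exact sum_congr rfl fun W _ => by simp only [sum_const, nsmul_eq_mul]

theorem pick (c : Fin j → Fin p) {N : ℕ} (hN : 1 ≤ N) (Φ : Pt j (p * m) → ℂ) (δ : ℝ)
    (h : δ * (N : ℝ) ^ (j * (p * m)) ≤ ‖∑ W ∈ bp j (p * m) N, Φ W‖) :
    ∃ W, δ * ((N : ℝ) ^ m) ^ j ≤ ‖∑ h ∈ bp j m N, Φ (rp c W h)‖ := by
  have ne : (bp j (p * m) N).Nonempty := by rw [← card_pos, Sy.card_bp]; positivity
  obtain ⟨W, -, hW⟩ := exists_le_of_sum_le (f := fun _ => δ * ((N : ℝ) ^ m) ^ j)
    (g := fun W => ‖∑ h ∈ bp j m N, Φ (rp c W h)‖) ne (by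
      refine le_trans ?_ (norm_sum_le _ _)
      rw [resample, norm_mul, sum_const, nsmul_eq_mul, Sy.card_bp, Sy.card_bp, Complex.norm_natCast]
      push_cast
      rw [← pow_mul (N : ℝ) (p * m), mul_comm (p * m) j]
      have : (0 : ℝ) ≤ ((N : ℝ) ^ m) ^ j := by positivity
      nlinarith [mul_le_mul_of_nonneg_left h this])
  exact ⟨W, hW⟩

theorem cw_vl (c : Fin j → Fin p) (L : List (Cd j (p * m))) (r : ℝ) (W : Pt (j + 1) m) :
    Vl L r (em c (Fin.tail W)) → Vl (cw c L) r W := fun h u hu => by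
  obtain ⟨v, hv, rfl⟩ := List.mem_map.1 hu
  exact h v hv

end F2c

open F2c in
theorem f2 (j : ℕ) : F2 j := by
  classical
  rcases j with _ | r
  · exact ⟨0, fun _ _ _ _ _ _ _ _ _ _ _ _ _ _ i => i.elim0⟩
  refine ⟨8 * 2 ^ r + 8, fun Y p q N L Lt F X s0 ρ Ω u g c i hs _ hT hX ρ0 ρ8 hΩ hu u0 hg h => ?_⟩
  have c1 := hs.C1
  push_cast at c1
  have p0 : (0 : ℝ) < 2 ^ r := by positivity
  have Y1 : (2 : ℝ) ≤ Y := by linarith
  have pwY : Y ^ 2 ≤ Y ^ (8 * 2 ^ r + 8) := pow_le_pow_right₀ (by linarith) (by omega)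
  have N1 : 1 ≤ N := by
    rcases Nat.eq_zero_or_pos N with rfl | hN
    · have := hs.lg
      have h3 : 0 < Y ^ (8 * 2 ^ r + 8) := by positivity
      simp at this
      linarith
    · exact hN
  have N0 : (0 : ℝ) < N := by exact_mod_cast N1
  have mz : ∀ {M : ℕ} {x : Vz q}, x ∈ bz q M ↔ ∀ i, 0 ≤ x i ∧ x i < M := by
    intro M x; simp [bz, rg, Fintype.mem_piFinset]
  have ms : ∀ {x : Vz q}, x ∈ sz q N ↔ ∀ i, -(N : ℤ) < x i ∧ x i < N := by
    intro x; simp [sz, sy, Fintype.mem_piFinset]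
  have hD : ∀ x ∈ bz q N, ∀ y ∈ bz q N, x - y ∈ sz q N := fun x hx y hy => ms.2 fun l => by
    have := mz.1 hx l
    have := mz.1 hy l
    simp only [Pi.sub_apply]
    omega
  have cz : ((sz q N).card : ℝ) ≤ (2 * N) ^ q := by
    rw [sz, Fintype.card_piFinset]
    simp only [sy, Int.card_Ioo, prod_const, card_univ, Fintype.card_fin]
    push_cast
    refine pow_le_pow_left₀ (by positivity) ?_ _
    have : ((N : ℤ) - -(N : ℤ) - 1).toNat ≤ 2 * N := by omega
    exact_mod_cast this
  obtain ⟨W0, hW⟩ := pick c N1 _ (Real.exp (-Y) * (N : ℝ) ^ q)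
    (le_trans (le_of_eq (by rw [pow_add]; ring)) h)
  have hk : ∀ c' : Fin (r + 1) → Fin p, ∃ k, c' ≠ c → c' k ≠ c k := fun c' => by
    by_cases e : c' = c
    · exact ⟨i, fun n => absurd e n⟩
    · obtain ⟨k, hk⟩ := Function.ne_iff.1 e
      exact ⟨k, fun _ => hk⟩
  choose κ hκ using hk
  obtain ⟨E1, E2, v1, v2, key⟩ := Sw.f2a (bz q N) (bz q N) (bz q (2 * N)) (sz q N) (sz q N)
    (Sy.bz_ne N1) (fun x hx y hy => mz.2 fun l => by
      have := mz.1 hx l
      have := mz.1 hy l
      simp only [Pi.add_apply]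
      push_cast
      omega) (fun x hx y hy => hD y hy x hx) hD (fun h => Ar L s0 ρ (rp c W0 h))
    (fun h => Vl Lt (1 / 8) (em c h)) (fun h => dh fun l => F l (rp c W0 h))
    (fun h => dh fun l => X l (em c h)) (fun W W' ho => by
      have t := fun l => (hX l).2 s0 ρ (rp c W0 W) (rp c W0 W') ρ0 (by linarith)
        fun J => by rw [rp_sb]; exact ho J
      simp only [rp_sub, rp_sb] at t
      refine ⟨fun v hv => ((t ⟨0, hs.q1⟩).1 v hv).trans ρ8, fun s => ?_⟩
      show Val.dl univ (fun J => ∑ l, F l (rp c W0 (J.piecewise W W')) * s l) =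
        ∑ l, X l (em c (W - W')) * s l
      rw [Val.dl_sum]
      refine sum_congr rfl fun l _ => ?_
      simp only [mul_comm _ ((s l : ℤ) : ℝ)]
      rw [Val.dl_mul, (t l).2]) i
    (fun h z => g c (z + ∑ k ∈ univ.erase i, h k)) (fun h => u (rp c W0 h))
    (fun k h s => ∏ c' ∈ (univ.erase c).filter (fun c' => κ c' = k),
      g c' (s + ∑ k', bk (rp c W0 h k') (c' k')))
    (fun _ _ => hg _ _) (fun W a s => by
      congr 2
      exact sum_congr rfl fun k hk => Function.update_of_ne (ne_of_mem_erase hk) _ _)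
    (fun _ => hu _) (fun W hn => u0 _ fun hm => hn (hΩ _ hm))
    (fun k W s => by
      rw [norm_prod]
      exact prod_le_one (fun _ _ => norm_nonneg _) fun _ _ => hg _ _)
    (fun k W a s => prod_congr rfl fun c' hc' => by
      obtain ⟨n1, n2⟩ := mem_filter.1 hc'
      congr 2
      refine sum_congr rfl fun k' _ => ?_
      rw [bk_rp, bk_rp]
      by_cases e : k' = k
      · subst e
        have := hκ c' (ne_of_mem_erase n1)
        rw [n2] at this
        rw [if_neg this, if_neg this]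
      · rw [Function.update_of_ne e])
    (δ := Real.exp (-Y)) (Real.exp_pos _).le (by
      rw [Sy.card_bz]
      push_cast
      refine le_trans (le_of_eq (by ring)) (hW.trans (le_of_eq (congrArg norm ?_)))
      refine sum_congr rfl fun W _ => sum_congr rfl fun s _ => ?_
      rw [prod_fiberwise, ← mul_prod_erase univ _ (mem_univ c)]
      have : s + ∑ k, bk (rp c W0 W k) (c k) = W i + s + ∑ k ∈ univ.erase i, W k := by
        simp only [bk_rp, if_true]
        rw [← add_sum_erase univ _ (mem_univ i)]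
        abel
      rw [this]
      show _ = _ * _ * ee (∑ l, F l (rp c W0 W) * (s l : ℝ)) * _
      ring)
  let σ : Equiv.Perm (Fin (r + 2)) := Equiv.swap 0 i.succ
  let u' : Fin (r + 2) → Pt (r + 2) q → ℂ := fun k W =>
    (if k = 0 then Sw.ind (E1 (Fin.tail W)) else 1) *
      if k = i.succ then Sw.ind (E2 (Fin.tail (W ∘ σ))) else 1
  have pu : ∀ W, ∏ k, u' k W = Sw.ind (E1 (Fin.tail W)) * Sw.ind (E2 (Fin.tail (W ∘ σ))) := by
    intro W
    simp only [u', prod_mul_distrib, prod_ite_eq', mem_univ, if_true]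
  refine ⟨u', fun k W => Sy.n2 (by split_ifs; exact ind_le _; simp)
    (by split_ifs; exact ind_le _; simp), fun k W a => ?_, fun W hW => ?_, ?_⟩
  · simp only [u']
    congr 1
    · split_ifs with e
      · subst e; rw [Fin.tail_update_zero]
      · rfl
    · split_ifs with e
      · subst e
        congr 2
        funext k
        show Function.update W i.succ a (σ k.succ) = W (σ k.succ)
        refine Function.update_of_ne (fun e => Fin.succ_ne_zero k ?_) _ _
        rw [← Equiv.swap_apply_left 0 i.succ] at e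
        exact σ.injective e
      · rfl
  · rw [pu] at hW
    refine H24.vl_app.2 ⟨cw_vl c Lt _ W (v1 _ ?_),
      (H24.rn_vl σ.toEmbedding _ _).2 (cw_vl c Lt _ _ (v2 _ ?_))⟩
    · by_contra a
      exact hW (by rw [Sw.ind_neg (P := E1 (Fin.tail W)) a, zero_mul])
    · by_contra a
      exact hW (by rw [Sw.ind_neg (P := E2 (Fin.tail (W ∘ σ))) a, mul_zero])
  · have e : ∑ W ∈ Fintype.piFinset (fun _ : Fin (r + 1 + 1) => sz q N),
        (∏ k, u' k W) * ee (chi c X W - chi c X (W ∘ σ)) =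
        ∑ h ∈ Fintype.piFinset (fun _ : Fin (r + 1) => sz q N), ∑ s ∈ sz q N,
          Sw.ind (E1 h) * Sw.ind (E2 (Function.update h i s)) *
            WA.ee (dh (fun l => X l (em c h)) s -
              dh (fun l => X l (em c (Function.update h i s))) (h i)) := by
      rw [Sw.sum_ins 0]
      refine sum_congr rfl fun h _ => sum_congr rfl fun s _ => ?_
      have : Sw.ins 0 s h = Fin.cons s h := Fin.insertNth_zero' s h
      rw [pu, this, chi, chi, tail_swap, Fin.tail_cons, Fin.cons_zero, Function.comp_apply,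
        Equiv.swap_apply_left, Fin.cons_succ]
      rfl
    refine le_trans (mul_le_mul_of_nonneg_right (Real.exp_le_exp.2 (neg_le_neg pwY))
      (by positivity)) (le_trans ?_ (le_of_eq (congrArg norm e.symm)))
    refine le_trans ?_ (Complex.re_le_norm _)
    rw [Sy.card_bz, Sy.card_bz] at key
    push_cast at key
    generalize (∑ h ∈ Fintype.piFinset (fun _ : Fin (r + 1) => sz q N), ∑ s ∈ sz q N,
      Sw.ind (E1 h) * Sw.ind (E2 (Function.update h i s)) *
        WA.ee (dh (fun l => X l (em c h)) s -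
          dh (fun l => X l (em c (Function.update h i s))) (h i))).re = R at key ⊢
    have e1 : (N : ℝ) ^ ((r + 1 + 1) * q) = ((N : ℝ) ^ q) ^ (r + 2) := by
      rw [← pow_mul, mul_comm]
    rw [e1]
    rw [mul_pow] at cz
    rw [mul_pow 2] at key
    have M0 : 0 < (N : ℝ) ^ q := pow_pos N0 q
    generalize (N : ℝ) ^ q = M at cz key M0 ⊢
    have t1 : (2 : ℝ) ^ q ≤ Real.exp Y := by
      refine le_trans ?_ (Real.exp_le_exp.2 hs.qY)
      rw [← mul_one (q : ℝ), Real.exp_nat_mul]
      exact pow_le_pow_left₀ (by norm_num) (by linarith [Real.add_one_le_exp 1]) _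
    have t0 : (0 : ℝ) < 2 ^ q := by positivity
    generalize (2 : ℝ) ^ q = E at cz key t1 t0
    have R0 : 0 ≤ R := by
      by_contra hR
      have := mul_nonpos_of_nonneg_of_nonpos
        (by positivity : 0 ≤ (E * M * ((sz q N).card : ℝ) * M) ^ 4 * M ^ 2) (not_le.1 hR).le
      have h3 : 0 < Real.exp (-Y) ^ (2 ^ r * 8) * (M * M) ^ 8 * M ^ r := by positivity
      linarith
    have k2 := key.trans (mul_le_mul_of_nonneg_right (mul_le_mul_of_nonneg_right
      (pow_le_pow_left₀ (by positivity) (show E * M * ((sz q N).card : ℝ) * M ≤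
        Real.exp Y * M * (Real.exp Y * M) * M by
          have := cz.trans (mul_le_mul_of_nonneg_right t1 M0.le)
          gcongr) 4) (by positivity)) R0)
    have t2 : Real.exp (-Y ^ 2) * Real.exp Y ^ 8 ≤ Real.exp (-Y) ^ (2 ^ r * 8) := by
      rw [← Real.exp_nat_mul, ← Real.exp_nat_mul, ← Real.exp_add]
      refine Real.exp_le_exp.2 ?_
      push_cast
      nlinarith
    refine le_of_mul_le_mul_left ?_ (by positivity : 0 < Real.exp Y ^ 8 * M ^ 14)
    have k3 := mul_le_mul_of_nonneg_right t2 (by positivity : 0 ≤ (M * M) ^ 8 * M ^ r)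
    calc _ = Real.exp (-Y ^ 2) * Real.exp Y ^ 8 * ((M * M) ^ 8 * M ^ r) := by ring
      _ ≤ _ := k3
      _ = Real.exp (-Y) ^ (2 ^ r * 8) * (M * M) ^ 8 * M ^ r := by ring
      _ ≤ _ := k2
      _ = _ := by ring

end

end Vale.Agent.P057T.Gb
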