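import Mathlib

/-!
# Differences of diagonal forms are sums over words
-/

set_option linter.all false

noncomputable section

namespace Vale.Agent.P057T.Gb.H15

open Finset MvPolynomial

variable {Γ : Type} [Fintype Γ] [DecidableEq Γ]

/-- the alternating sum over the face `T` of the cube -/
def dl (T : Finset Γ) (f : Finset Γ → ℝ) : ℝ := ∑ S ∈ T.powerset, (-1) ^ (T.card + S.card) * f S

theorem dl_empty (f : Finset Γ → ℝ) : dl ∅ f = f ∅ := by simp [dl]

theorem dl_sub (T : Finset Γ) (f g : Finset Γ → ℝ) :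
    dl T (fun S => f S - g S) = dl T f - dl T g := by
  simp only [dl, mul_sub, sum_sub_distrib]

theorem dl_add (T : Finset Γ) (f g : Finset Γ → ℝ) :
    dl T (fun S => f S + g S) = dl T f + dl T g := by
  simp only [dl, mul_add, sum_add_distrib]

theorem dl_smul (T : Finset Γ) (c : ℝ) (f : Finset Γ → ℝ) :
    dl T (fun S => c * f S) = c * dl T f := by
  simp only [dl, mul_sum]
  exact sum_congr rfl fun S _ => by ring

theorem dl_insert {i : Γ} {T : Finset Γ} (hi : i ∉ T) (f : Finset Γ → ℝ) :
    dl (insert i T) f = dl T (fun S => f (insert i S) - f S) := by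
  rw [dl, sum_powerset_insert hi, dl, ← sum_add_distrib]
  refine sum_congr rfl fun S hS => ?_
  have hS' : i ∉ S := fun h => hi (mem_powerset.1 hS h)
  rw [card_insert_of_notMem hi, card_insert_of_notMem hS']
  ring

theorem sum_dl (S : Finset Γ) (f : Finset Γ → ℝ) : ∑ A ∈ S.powerset, dl A f = f S := by
  induction S using Finset.induction_on generalizing f with
  | empty => simp [dl_empty]
  | insert i S hi ih =>
    rw [sum_powerset_insert hi, ← sum_add_distrib, ← ih fun S => f (insert i S)]
    refine sum_congr rfl fun A hA => ?_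
    rw [dl_insert (fun h => hi (mem_powerset.1 hA h)), dl_sub]
    ring

theorem dl_of (T : Finset Γ) (f c : Finset Γ → ℝ) (h : ∀ S ⊆ T, f S = ∑ A ∈ S.powerset, c A) :
    dl T f = c T := by
  induction T using Finset.induction_on generalizing f c with
  | empty => rw [dl_empty, h ∅ (Subset.refl _)]; simp
  | insert i T hi ih =>
    rw [dl_insert hi]
    refine ih _ (fun A => c (insert i A)) fun S hS => ?_
    rw [h _ (insert_subset_insert i hS), h S (hS.trans (subset_insert i T)),
      sum_powerset_insert (fun h => hi (hS h))]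
    ring

theorem dl_mul (T : Finset Γ) (f g : Finset Γ → ℝ) : dl T (fun S => f S * g S) =
    ∑ p ∈ (univ : Finset (Finset Γ × Finset Γ)).filter (fun p => p.1 ∪ p.2 = T),
      dl p.1 f * dl p.2 g := by
  refine dl_of T _ (fun C => ∑ p ∈ (univ : Finset (Finset Γ × Finset Γ)).filter
    (fun p => p.1 ∪ p.2 = C), dl p.1 f * dl p.2 g) fun S _ => ?_
  rw [← sum_dl S f, ← sum_dl S g, sum_mul_sum, ← sum_product',
    ← sum_fiberwise_of_maps_to (s := S.powerset ×ˢ S.powerset) (t := S.powerset)
      (g := fun p => p.1 ∪ p.2) (fun p hp => by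
        rw [mem_product, mem_powerset, mem_powerset] at hp
        exact mem_powerset.2 (union_subset hp.1 hp.2))]
  refine sum_congr rfl fun C hC => sum_congr ?_ fun _ _ => rfl
  ext p
  simp only [mem_filter, mem_product, mem_powerset, mem_univ, true_and]
  refine ⟨fun h => h.2, fun h => ⟨⟨?_, ?_⟩, h⟩⟩
  · exact (subset_union_left.trans h.le).trans (mem_powerset.1 hC)
  · exact (subset_union_right.trans h.le).trans (mem_powerset.1 hC)

theorem dl_const {T : Finset Γ} (hT : T.Nonempty) (c : ℝ) : dl T (fun _ => c) = 0 := by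
  rw [dl_of T _ (fun A => if A = ∅ then c else 0) fun S _ => by simp, if_neg hT.ne_empty]

theorem abs_dl (T : Finset Γ) (f : Finset Γ → ℝ) {r : ℝ} (h : ∀ S, |f S| ≤ r) :
    |dl T f| ≤ 2 ^ T.card * r := by
  refine (abs_sum_le_sum_abs _ _).trans ((sum_le_sum (g := fun _ => r) fun S _ => ?_).trans ?_)
  · rw [abs_mul, abs_pow, abs_neg, abs_one, one_pow, one_mul]; exact h S
  · rw [sum_const, card_powerset, nsmul_eq_mul]; push_cast; exact le_rfl

theorem dl_int (T : Finset Γ) (f : Finset Γ → ℤ) : ∃ k : ℤ, dl T (fun S => (f S : ℝ)) = k :=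
  ⟨∑ S ∈ T.powerset, (-1) ^ (T.card + S.card) * f S, by simp [dl]⟩

/-- the words from `t` onto `T` -/
def Bj (t T : Finset Γ) : Finset (Γ → Γ) :=
  univ.filter fun ph => (∀ i, i ∉ t → ph i = i) ∧ t.image ph = T

/-- `φ` only sees the letters in `t` -/
def Lc (t : Finset Γ) (φ : (Γ → Γ) → ℝ) : Prop :=
  ∀ ph ph', (∀ i ∈ t, ph i = ph' i) → φ ph = φ ph'

/-- `f` has degree `|t|` on the cube, with top differences given by the words -/
structure Gd (t : Finset Γ) (φ : (Γ → Γ) → ℝ) (f : Finset Γ → ℝ) : Prop where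
  lc : Lc t φ
  hi : ∀ T, t.card < T.card → dl T f = 0
  eq : ∀ T, T.card = t.card → dl T f = ∑ ph ∈ Bj t T, φ ph

theorem Gd.add {t : Finset Γ} {φ ψ f g} (h : Gd t φ f) (k : Gd t ψ g) :
    Gd t (fun ph => φ ph + ψ ph) (fun S => f S + g S) where
  lc a b hab := by simp only [h.lc a b hab, k.lc a b hab]
  hi T hT := by rw [dl_add, h.hi T hT, k.hi T hT, add_zero]
  eq T hT := by rw [dl_add, h.eq T hT, k.eq T hT, sum_add_distrib]

theorem Gd.smul {t : Finset Γ} {φ f} (h : Gd t φ f) (c : ℝ) :
    Gd t (fun ph => c * φ ph) (fun S => c * f S) where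
  lc a b hab := by simp only [h.lc a b hab]
  hi T hT := by rw [dl_smul, h.hi T hT, mul_zero]
  eq T hT := by rw [dl_smul, h.eq T hT, mul_sum]

theorem gd_zero (t : Finset Γ) : Gd t (fun _ => 0) (fun _ => 0) where
  lc _ _ _ := rfl
  hi T _ := by simp [dl]
  eq T _ := by simp [dl]

theorem gd_sum {α : Type} (s : Finset α) {t : Finset Γ} {φ : α → (Γ → Γ) → ℝ}
    {f : α → Finset Γ → ℝ} (h : ∀ a ∈ s, Gd t (φ a) (f a)) :
    Gd t (fun ph => ∑ a ∈ s, φ a ph) (fun S => ∑ a ∈ s, f a S) := by
  classical
  induction s using Finset.induction_on with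
  | empty => simpa using gd_zero t
  | insert a s ha ih =>
    simp only [sum_insert ha]
    exact (h a (mem_insert_self _ _)).add (ih fun b hb => h b (mem_insert_of_mem hb))

theorem gd_one : Gd (∅ : Finset Γ) (fun _ => 1) (fun _ => 1) where
  lc _ _ _ := rfl
  hi T hT := dl_const (card_pos.1 (lt_of_le_of_lt (Nat.zero_le _) hT)) 1
  eq T hT := by
    rw [card_empty, card_eq_zero] at hT
    subst hT
    have : Bj (∅ : Finset Γ) ∅ = {id} := by
      ext ph
      simp only [Bj, mem_filter, mem_univ, true_and, image_empty, and_true, mem_singleton,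
        notMem_empty, not_false_eq_true, forall_const]
      exact ⟨fun h => funext h, fun h i => by rw [h]; rfl⟩
    rw [dl_empty, this, sum_singleton]

theorem bj_mul {t u A B : Finset Γ} (hd : Disjoint t u) {φ ψ : (Γ → Γ) → ℝ} (h : Lc t φ)
    (k : Lc u ψ) : (∑ a ∈ Bj t A, φ a) * ∑ b ∈ Bj u B, ψ b =
      ∑ ph ∈ (Bj (t ∪ u) (A ∪ B)).filter (fun ph => (t.image ph, u.image ph) = (A, B)),
        φ ph * ψ ph := by
  have hu : ∀ i ∈ u, i ∉ t := fun i hi ht => disjoint_left.1 hd ht hi
  rw [sum_mul_sum, ← sum_product']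
  refine sum_bij' (fun p _ => t.piecewise p.1 p.2)
    (fun ph _ => (t.piecewise ph id, u.piecewise ph id)) ?_ ?_ ?_ ?_ ?_
  · rintro ⟨a, b⟩ hp
    simp only [Bj, mem_product, mem_filter, mem_univ, true_and] at hp ⊢
    have e1 : t.image (t.piecewise a b) = A := by
      rw [← hp.1.2]; exact image_congr fun i hi => piecewise_eq_of_mem _ _ _ hi
    have e2 : u.image (t.piecewise a b) = B := by
      rw [← hp.2.2]; exact image_congr fun i hi => piecewise_eq_of_notMem _ _ _ (hu i hi)
    refine ⟨⟨fun i hi => ?_, by rw [image_union, e1, e2]⟩, by rw [e1, e2]⟩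
    rw [mem_union, not_or] at hi
    rw [piecewise_eq_of_notMem _ _ _ hi.1, hp.2.1 i hi.2]
  · intro ph hp
    simp only [Bj, mem_product, mem_filter, mem_univ, true_and, Prod.mk.injEq] at hp ⊢
    refine ⟨⟨fun i hi => piecewise_eq_of_notMem _ _ _ hi, ?_⟩,
      fun i hi => piecewise_eq_of_notMem _ _ _ hi, ?_⟩
    · rw [← hp.2.1]; exact image_congr fun i hi => piecewise_eq_of_mem _ _ _ hi
    · rw [← hp.2.2]; exact image_congr fun i hi => piecewise_eq_of_mem _ _ _ hi
  · rintro ⟨a, b⟩ hp
    simp only [Bj, mem_product, mem_filter, mem_univ, true_and] at hp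
    refine Prod.ext (funext fun i => ?_) (funext fun i => ?_)
    · by_cases hi : i ∈ t
      · simp only [piecewise_eq_of_mem _ _ _ hi]
      · simp only [piecewise_eq_of_notMem _ _ _ hi, id, hp.1.1 i hi]
    · by_cases hi : i ∈ u
      · simp only [piecewise_eq_of_mem _ _ _ hi, piecewise_eq_of_notMem _ _ _ (hu i hi)]
      · simp only [piecewise_eq_of_notMem _ _ _ hi, id, hp.2.1 i hi]
  · intro ph hp
    simp only [Bj, mem_filter, mem_univ, true_and] at hp
    funext i
    by_cases hi : i ∈ t
    · simp only [piecewise_eq_of_mem _ _ _ hi]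
    · by_cases hj : i ∈ u
      · simp only [piecewise_eq_of_notMem _ _ _ hi, piecewise_eq_of_mem _ _ _ hj]
      · simp only [piecewise_eq_of_notMem _ _ _ hi, piecewise_eq_of_notMem _ _ _ hj, id]
        exact (hp.1.1 i (by rw [mem_union, not_or]; exact ⟨hi, hj⟩)).symm
  · rintro ⟨a, b⟩ _
    rw [h a (t.piecewise a b) fun i hi => (piecewise_eq_of_mem _ _ _ hi).symm,
      k b (t.piecewise a b) fun i hi => (piecewise_eq_of_notMem _ _ _ (hu i hi)).symm]

theorem Gd.mul {t u : Finset Γ} (hd : Disjoint t u) {φ ψ f g} (h : Gd t φ f) (k : Gd u ψ g) :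
    Gd (t ∪ u) (fun ph => φ ph * ψ ph) (fun S => f S * g S) where
  lc a b hab := by
    simp only [h.lc a b fun i hi => hab i (mem_union_left _ hi),
      k.lc a b fun i hi => hab i (mem_union_right _ hi)]
  hi T hT := by
    rw [dl_mul]
    refine sum_eq_zero fun p hp => ?_
    have e := (mem_filter.1 hp).2
    have c1 := card_union_le p.1 p.2
    rw [card_union_of_disjoint hd] at hT
    rw [e] at c1
    by_cases h1 : t.card < p.1.card
    · rw [h.hi _ h1, zero_mul]
    · rw [k.hi p.2 (by omega), mul_zero]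
  eq T hT := by
    rw [card_union_of_disjoint hd] at hT
    rw [dl_mul, ← sum_fiberwise_of_maps_to (s := Bj (t ∪ u) T)
      (t := (univ : Finset (Finset Γ × Finset Γ)).filter (fun p => p.1 ∪ p.2 = T))
      (g := fun ph => (t.image ph, u.image ph)) (fun ph hp => by
        simp only [Bj, mem_filter, mem_univ, true_and] at hp ⊢
        rw [← image_union, hp.2])]
    refine sum_congr rfl fun p hp => ?_
    have e := (mem_filter.1 hp).2
    have c1 := card_union_le p.1 p.2
    rw [e] at c1
    by_cases h1 : t.card < p.1.card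
    · rw [h.hi _ h1, zero_mul]
      refine (sum_eq_zero fun ph hq => ?_).symm
      have := congrArg (fun q : Finset Γ × Finset Γ => q.1.card) (mem_filter.1 hq).2
      have c2 : (t.image ph).card ≤ t.card := card_image_le
      simp only at this
      omega
    by_cases h2 : u.card < p.2.card
    · rw [k.hi _ h2, mul_zero]
      refine (sum_eq_zero fun ph hq => ?_).symm
      have := congrArg (fun q : Finset Γ × Finset Γ => q.2.card) (mem_filter.1 hq).2
      have c2 : (u.image ph).card ≤ u.card := card_image_le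
      simp only at this
      omega
    rw [h.eq p.1 (by omega), k.eq p.2 (by omega), bj_mul hd h.lc k.lc, e]

/-- the sum over all words is the sum over the permutations -/
theorem sum_bj_univ (φ : (Γ → Γ) → ℝ) :
    ∑ ph ∈ Bj (univ : Finset Γ) univ, φ ph = ∑ s : Equiv.Perm Γ, φ s := by
  symm
  refine sum_bij (fun s _ => (s : Γ → Γ)) ?_ ?_ ?_ fun _ _ => rfl
  · intro s _
    simp only [Bj, mem_filter, mem_univ, true_and, not_true_eq_false, false_imp_iff, implies_true]
    exact image_univ_of_surjective s.surjective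
  · intro a _ b _ hab
    exact Equiv.ext (congrFun hab)
  · intro ph hp
    simp only [Bj, mem_filter, mem_univ, true_and] at hp
    have hs : Function.Surjective ph := fun y => by
      have : y ∈ univ.image ph := by rw [hp.2]; exact mem_univ y
      obtain ⟨x, _, hx⟩ := mem_image.1 this
      exact ⟨x, hx⟩
    exact ⟨Equiv.ofBijective ph ⟨Finite.injective_iff_surjective.2 hs, hs⟩, mem_univ _, rfl⟩

/-- the indicator of a type -/
def ind (t : Finset Γ) : Γ → ℕ := fun i => if i ∈ t then 1 else 0

variable {ι : Type} {col : ι → Finset Γ} {z : (Γ → Γ) → ι → ℝ} {W : Finset Γ → ι → ℝ}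

theorem gd_mon (n : ℕ) : ∀ (m : ι →₀ ℕ) (t : Finset Γ), m.degree = n →
    Finsupp.weight (fun v => ind (col v)) m = ind t →
    (∀ b ∈ m.support, Gd (col b) (fun ph => z ph b) (fun S => W S b)) →
    Gd t (fun ph => m.prod fun b k => z ph b ^ k) (fun S => m.prod fun b k => W S b ^ k) := by
  classical
  induction n with
  | zero =>
    intro m t hm hw _
    rw [Finsupp.degree_eq_zero_iff] at hm
    subst hm
    have : t = ∅ := by
      rw [map_zero] at hw
      refine eq_empty_of_forall_notMem fun i hi => ?_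
      have := congrFun hw i
      simp [ind, hi] at this
    subst this
    simpa using gd_one
  | succ n ih =>
    intro m t hm hw hb
    have h0 : m ≠ 0 := by rintro rfl; simp at hm
    obtain ⟨b, hbm⟩ := Finsupp.support_nonempty_iff.2 h0
    have hle : Finsupp.single b 1 ≤ m := by
      rw [Finsupp.single_le_iff]; exact Nat.one_le_iff_ne_zero.2 (Finsupp.mem_support_iff.1 hbm)
    obtain ⟨m', rfl⟩ := exists_add_of_le hle
    rw [map_add, Finsupp.degree_single] at hm
    rw [map_add, Finsupp.weight_single, one_smul] at hw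
    have hs : col b ⊆ t := fun i hi => by
      by_contra hn
      have := congrFun hw i
      simp [ind, hi, hn] at this
    have hw' : Finsupp.weight (fun v => ind (col v)) m' = ind (t \ col b) := by
      funext i
      have := congrFun hw i
      simp only [Pi.add_apply, ind, mem_sdiff] at this ⊢
      by_cases h1 : i ∈ col b
      · simp only [h1, hs h1, if_true, not_true_eq_false, and_false, if_false] at this ⊢; omega
      · simp only [h1, if_false, not_false_eq_true, and_true, zero_add] at this ⊢; exact this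
    have k := ih m' (t \ col b) (by omega) hw' fun c hc => hb c (by
      rw [Finsupp.mem_support_iff] at hc ⊢
      rw [Finsupp.add_apply]; omega)
    have := (hb b hbm).mul disjoint_sdiff k
    rw [union_sdiff_of_subset hs] at this
    have e : ∀ x : ι → ℝ, ((Finsupp.single b 1 + m').prod fun b k => x b ^ k) =
        x b * m'.prod fun b k => x b ^ k := fun x => by
      rw [Finsupp.prod_add_index' (fun _ => pow_zero _) (fun _ _ _ => pow_add _ _ _),
        Finsupp.prod_single_index (h := fun b k => x b ^ k) (pow_zero _), pow_one]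
    simpa only [e] using this

/-- multilinear forms of type `t` -/
theorem gd_ml {F : MvPolynomial ι ℝ} {t : Finset Γ}
    (hF : IsWeightedHomogeneous (fun v => ind (col v)) F (ind t))
    (hb : ∀ b ∈ F.vars, Gd (col b) (fun ph => z ph b) (fun S => W S b)) :
    Gd t (fun ph => eval (z ph) F) (fun S => eval (W S) F) := by
  classical
  simp only [eval_eq]
  refine gd_sum _ fun m hm => ?_
  exact (gd_mon _ m t rfl (hF (mem_support_iff.1 hm)) fun b hbm =>
    hb b ((mem_vars b).2 ⟨m, hm, hbm⟩)).smul (coeff m F)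

/-- one bracket -/
theorem gd_br {t : Finset Γ} (ht : t.Nonempty) {φ f} (h : Gd t φ f) {y : (Γ → Γ) → ℤ}
    {w : Finset Γ → ℤ} {s ρ r : ℝ} (hl : Lc t fun ph => (y ph : ℝ))
    (hw : ∀ S, |f S - s - w S| ≤ ρ) (hy : ∀ ph, Set.InjOn ph t → |φ ph - y ph| ≤ r)
    (hr : 0 ≤ r)
    (hs : 2 ^ Fintype.card Γ * ρ + (Fintype.card Γ : ℝ) ^ Fintype.card Γ * r < 1) :
    Gd t (fun ph => (y ph : ℝ)) (fun S => (w S : ℝ)) := by
  have hρ : 0 ≤ ρ := (abs_nonneg _).trans (hw ∅)
  have k1 : ∀ T : Finset Γ, T.Nonempty →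
      |dl T f - dl T fun S => (w S : ℝ)| ≤ 2 ^ Fintype.card Γ * ρ := fun T hT => by
    have := abs_dl T (fun S => f S - s - w S) hw
    rw [dl_sub, dl_sub, dl_const hT, sub_zero] at this
    refine this.trans (mul_le_mul_of_nonneg_right ?_ hρ)
    exact pow_le_pow_right₀ one_le_two (card_le_univ T)
  have k2 : ∀ a b : ℤ, |(a : ℝ) - b| < 1 → (a : ℝ) = b := fun a b hab => by
    have : |a - b| < 1 := by exact_mod_cast hab
    have : a = b := by have := abs_lt.1 this; omega
    rw [this]
  have k3 : (0 : ℝ) ≤ (Fintype.card Γ : ℝ) ^ Fintype.card Γ * r := by positivity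
  refine ⟨hl, fun T hT => ?_, fun T hT => ?_⟩
  · obtain ⟨k, hk⟩ := dl_int T w
    have := k1 T (card_pos.1 (lt_of_le_of_lt (Nat.zero_le _) hT))
    rw [h.hi T hT, hk] at this
    rw [hk]
    have e := k2 0 k (by push_cast; linarith)
    rw [← e]; simp
  · obtain ⟨k, hk⟩ := dl_int T w
    have a1 := k1 T (card_pos.1 (by rw [hT]; exact card_pos.2 ht))
    rw [h.eq T hT, hk] at a1
    have a2 : |∑ ph ∈ Bj t T, φ ph - ∑ ph ∈ Bj t T, (y ph : ℝ)| ≤
        (Fintype.card Γ : ℝ) ^ Fintype.card Γ * r := by
      rw [← sum_sub_distrib]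
      refine (abs_sum_le_sum_abs _ _).trans ((sum_le_sum (g := fun _ => r) fun ph hp => ?_).trans ?_)
      · refine hy ph (card_image_iff.1 ?_)
        rw [(mem_filter.1 hp).2.2, hT]
      · rw [sum_const, nsmul_eq_mul]
        refine mul_le_mul_of_nonneg_right ?_ hr
        have := card_le_univ (Bj t T)
        rw [Fintype.card_fun] at this
        exact_mod_cast this
    rw [hk]
    have e := k2 k (∑ ph ∈ Bj t T, y ph) (by
      push_cast
      have := abs_le.1 a1
      have := abs_le.1 a2
      rw [abs_lt]; constructor <;> linarith)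
    rw [e]; push_cast; rfl

/-- **F3**: all coordinates of the diagonal tower -/
theorem f3 {br : Set ι} {lv : ι → ℕ} {Q : ι → MvPolynomial ι ℝ} {y : (Γ → Γ) → ι → ℤ}
    {w : Finset Γ → ι → ℤ} {s : ι → ℝ} {ρ r : ℝ}
    (hQ : ∀ a ∈ br, IsWeightedHomogeneous (fun v => ind (col v)) (Q a) (ind (col a)))
    (hv : ∀ a ∈ br, ∀ b ∈ (Q a).vars, lv b < lv a) (hn : ∀ a ∈ br, (col a).Nonempty)
    (h0 : ∀ a, a ∉ br → Gd (col a) (fun ph => (y ph a : ℝ)) (fun S => (w S a : ℝ)))
    (hl : ∀ a ∈ br, Lc (col a) fun ph => (y ph a : ℝ))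
    (hw : ∀ a ∈ br, ∀ S, |eval (fun b => (w S b : ℝ)) (Q a) - s a - w S a| ≤ ρ)
    (hy : ∀ a ∈ br, ∀ ph, Set.InjOn ph (col a) →
      |eval (fun b => (y ph b : ℝ)) (Q a) - y ph a| ≤ r) (hr : 0 ≤ r)
    (hs : 2 ^ Fintype.card Γ * ρ + (Fintype.card Γ : ℝ) ^ Fintype.card Γ * r < 1) (a : ι) :
    Gd (col a) (fun ph => (y ph a : ℝ)) (fun S => (w S a : ℝ)) := by
  induction hk : lv a using Nat.strong_induction_on generalizing a with
  | _ k ih =>
    by_cases ha : a ∈ br
    · refine gd_br (hn a ha) (gd_ml (z := fun ph b => (y ph b : ℝ))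
        (W := fun S b => (w S b : ℝ)) (hQ a ha) fun b hb => ?_) (hl a ha) (hw a ha) (hy a ha) hr hs
      exact ih (lv b) (hk ▸ hv a ha b hb) b rfl
    · exact h0 a ha

/-- **F3**: the top form -/
theorem f3_top {F : MvPolynomial ι ℝ}
    (hF : IsWeightedHomogeneous (fun v => ind (col v)) F (ind univ))
    (hb : ∀ b, Gd (col b) (fun ph => z ph b) (fun S => W S b)) :
    dl univ (fun S => eval (W S) F) = ∑ s : Equiv.Perm Γ, eval (z s) F := by
  rw [(gd_ml hF fun b _ => hb b).eq univ rfl, sum_bj_univ fun ph => eval (z ph) F]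

/-- entries: the point `x + sum of h i over S`, the word reads `h (ph i)` -/
theorem gd_ent (i : Γ) (x : ℝ) (h : Γ → ℝ) :
    Gd {i} (fun ph => h (ph i)) (fun S => x + ∑ k ∈ S, h k) := by
  have key : ∀ T : Finset Γ, dl T (fun S => x + ∑ k ∈ S, h k) =
      (if T = ∅ then x else 0) + ∑ k, if T = {k} then h k else 0 := fun T => by
    refine dl_of T _ (fun A => (if A = ∅ then x else 0) + ∑ k, if A = {k} then h k else 0)
      fun S _ => ?_
    rw [sum_add_distrib, sum_comm]
    simp
  refine ⟨fun a b hab => by simp only [hab i (mem_singleton_self i)], fun T hT => ?_,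
    fun T hT => ?_⟩
  · rw [card_singleton] at hT
    rw [key, if_neg (by rintro rfl; simp at hT), zero_add]
    exact sum_eq_zero fun k _ => if_neg (by rintro rfl; simp at hT)
  · rw [card_singleton, card_eq_one] at hT
    obtain ⟨k, rfl⟩ := hT
    have : Bj ({i} : Finset Γ) {k} = {Function.update id i k} := by
      ext ph
      simp only [Bj, mem_filter, mem_univ, true_and, image_singleton, mem_singleton,
        singleton_inj]
      constructor
      · rintro ⟨h1, h2⟩
        funext j
        by_cases hj : j = i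
        · subst hj; simp [h2]
        · simp [Function.update_of_ne hj, h1 j hj]
      · rintro rfl
        exact ⟨fun j hj => by simp [Function.update_of_ne hj], by simp⟩
    rw [key, this, sum_singleton, if_neg (singleton_ne_empty k), zero_add]
    simp

end Vale.Agent.P057T.Gb.H15
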