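import Vale.Agent.P057T.Loc.Tb
import Vale.Agent.P057T.Val32

/-! The top tower of a bracket tower, and renaming of classes. -/

set_option linter.all false

open Finset
open scoped BigOperators

namespace Vale.Agent.P057T.Loc.H24

open Vale.Agent.P057Z Vale.Agent.P057L Vale.Agent.P057T.Gkh
open Vale.Agent.P057T.Val (dl dl_prod dl_miss dl_const dl_add dl_sub dl_mul dl_empty dl_abs dl_cast
  dl_congr)

noncomputable section

variable {j j' q : ℕ} {L Lt : List (Cd j q)} {t : Finset (Fin j)} {F : Pt j q → ℝ}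

/-- one cell of narrow arcs -/
def Arc (L : List (Cd j q)) (cen : Cd j q → ℝ) (ρ : ℝ) (W : Pt j q) : Prop :=
  ∀ p ∈ L, |p.2 W - round (p.2 W) - cen p| ≤ ρ

/-- all hybrids lie in the cell -/
def Hy (L : List (Cd j q)) (cen : Cd j q → ℝ) (ρ : ℝ) (W W' : Pt j q) : Prop :=
  ∀ J : Finset (Fin j), Arc L cen ρ (J.piecewise W W')

def Gd (L : List (Cd j q)) (W W' : Pt j q) : Prop :=
  ∃ cen ρ, 2 ^ j * ρ < 1 / 2 ∧ Hy L cen ρ W W'

theorem rd_eq {v : ℝ} {n : ℤ} (h : |v - n| < 1 / 2) : round v = n := by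
  have h1 := round_sub_intCast v n
  have h2 : round (v - n) = 0 := round_eq_zero_iff.2 ⟨(abs_lt.1 h).1.le, (abs_lt.1 h).2⟩
  omega

theorem near {cen : Cd j q → ℝ} {ρ : ℝ} {W W' : Pt j q} (h : Hy L cen ρ W W') {p : Cd j q}
    (hp : p ∈ L) (hn : p.1.Nonempty) :
    |dl p.1 (fun J => p.2 (J.piecewise W W')) -
      ((dl p.1 (fun J => round (p.2 (J.piecewise W W'))) : ℤ) : ℝ)| ≤ 2 ^ j * ρ := by
  have h0 : 0 ≤ ρ := (abs_nonneg _).trans (h ∅ p hp)
  rw [dl_cast, ← dl_sub, ← sub_zero (dl _ _), ← dl_const hn (cen p), ← dl_sub]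
  refine (dl_abs _ _ fun J _ => h J p hp).trans (mul_le_mul_of_nonneg_right ?_ h0)
  exact pow_le_pow_right₀ (by norm_num) ((card_le_univ _).trans (by simp))

theorem pw_dep (hF : FrmP.Dep t F) (W W' : Pt j q) (J : Finset (Fin j)) :
    F (J.piecewise W W') = F ((J ∩ t).piecewise W W') :=
  hF _ _ fun i hi => by
    by_cases h : i ∈ J <;> simp [h, hi]

theorem valA (hL : Twr L) (G0 : Pt j q → Pt j q → Prop)
    (H : ∀ p ∈ L, p.1.Nonempty → ∃ p' ∈ Lt, p'.1 = p.1 ∧ ∀ W W', G0 W W' →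
      dl p.1 (fun J => (round (p.2 (J.piecewise W W')) : ℝ)) = round (p'.2 (W - W')))
    (h : Frm L t F) : ∃ G, Top Lt t G ∧ ∀ W W', G0 W W' →
      dl t (fun J => F (J.piecewise W W')) = G (W - W') := by
  have dB := FrmP.depB hL
  induction h with
  | cst t c =>
    rcases t.eq_empty_or_nonempty with rfl | hn
    · exact ⟨_, Top.cst c, fun _ _ _ => dl_empty _⟩
    · exact ⟨_, Top.zero t, fun _ _ _ => dl_const hn c⟩
  | add _ _ i1 i2 =>
    obtain ⟨G1, a1, a2⟩ := i1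
    obtain ⟨G2, b1, b2⟩ := i2
    exact ⟨_, Top.add a1 b1, fun W W' g => by rw [dl_add, a2 W W' g, b2 W W' g]⟩
  | @ent t F i l hi hF ih =>
    obtain ⟨G, a1, a2⟩ := ih
    refine ⟨_, Top.ent i l hi a1, fun W W' g => ?_⟩
    rw [insert_eq, dl_prod t (fun J => F (J.piecewise W W')) (pw_dep (FrmP.depA dB hF) W W') {i}
      (fun J => ((J.piecewise W W' i l : ℤ) : ℝ)) (by simpa using hi) (fun J _ => by
        by_cases h : i ∈ J <;> simp [h]), a2 W W' g]
    congr 1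
    rw [← insert_empty_eq, Val.dl_insert (notMem_empty i), dl_empty, dl_empty,
      piecewise_eq_of_mem _ _ _ (mem_insert_self i ∅), piecewise_empty]
    simp
  | @brk t F p hp hd hF ih =>
    obtain ⟨G, a1, a2⟩ := ih
    have e : ∀ W W' : Pt j q, dl (p.1 ∪ t) (fun J => (round (p.2 (J.piecewise W W')) : ℝ) *
        F (J.piecewise W W')) = dl p.1 (fun J => (round (p.2 (J.piecewise W W')) : ℝ)) *
          dl t (fun J => F (J.piecewise W W')) := fun W W' =>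
      dl_prod t _ (pw_dep (FrmP.depA dB hF) W W') p.1 _ hd fun J _ => by
        rw [pw_dep (dB p hp) W W' J]
    rcases p.1.eq_empty_or_nonempty with h0 | hn
    · refine ⟨_, TbP.congr' (TbP.smul (round (p.2 0) : ℝ) a1) (by rw [h0, empty_union])
        fun _ => rfl, fun W W' g => ?_⟩
      rw [e, a2 W W' g, h0, dl_empty, dB p hp _ 0 fun i hi => by simp [h0] at hi]
    · obtain ⟨p', hp', e1, e2⟩ := H p hp hn
      refine ⟨_, TbP.congr' (Top.brk p' hp' (e1 ▸ hd) a1) (by rw [e1]) fun _ => rfl,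
        fun W W' g => ?_⟩
      rw [e, a2 W W' g, e2 W W' g]
  | @mono t t' F hs hF ih =>
    rcases hs.eq_or_ssubset with rfl | hs'
    · exact ih
    · obtain ⟨c, hc, hc'⟩ := exists_of_ssubset hs'
      refine ⟨_, Top.zero t', fun W W' _ => dl_miss hc fun J => ?_⟩
      rw [pw_dep (FrmP.depA dB hF) W W', pw_dep (FrmP.depA dB hF) W W' J,
        insert_inter_of_notMem hc']

theorem Gd.tail {p : Cd j q} {W W' : Pt j q} (h : Gd (p :: L) W W') : Gd L W W' := by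
  obtain ⟨cen, ρ, h1, h2⟩ := h
  exact ⟨cen, ρ, h1, fun J p' hp' => h2 J p' (List.mem_cons_of_mem _ hp')⟩

theorem rdH {p p' : Cd j q} (hp : p ∈ L) (hn : p.1.Nonempty) {W W' : Pt j q} (g : Gd L W W')
    (e : dl p.1 (fun J => p.2 (J.piecewise W W')) = p'.2 (W - W')) :
    dl p.1 (fun J => (round (p.2 (J.piecewise W W')) : ℝ)) = round (p'.2 (W - W')) := by
  obtain ⟨cen, ρ, h1, h2⟩ := g
  rw [← e, rd_eq ((near h2 hp hn).trans_lt h1), dl_cast]

theorem valB (h : Twr L) : ∃ Lt : List (Cd j q), TT Lt ∧ Lt.length ≤ L.length ∧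
    (∀ p' ∈ Lt, ∃ p ∈ L, p.1.Nonempty ∧ p'.1 = p.1 ∧ ∀ W W', Gd L W W' →
      dl p.1 (fun J => p.2 (J.piecewise W W')) = p'.2 (W - W')) ∧
    ∀ p ∈ L, p.1.Nonempty → ∃ p' ∈ Lt, p'.1 = p.1 ∧ ∀ W W', Gd L W W' →
      dl p.1 (fun J => p.2 (J.piecewise W W')) = p'.2 (W - W') := by
  induction h with
  | nil => exact ⟨[], TT.nil, le_rfl, by simp, by simp⟩
  | @cons L t P hL hP ih =>
    obtain ⟨Lt, a1, a2, a3, a4⟩ := ih
    obtain ⟨G, b1, b2⟩ := valA (Lt := Lt) hL (Gd L) (fun p hp hn => by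
      obtain ⟨p', c1, c2, c3⟩ := a4 p hp hn
      exact ⟨p', c1, c2, fun W W' g => rdH hp hn g (c3 W W' g)⟩) hP
    have a3' : ∀ p' ∈ Lt, ∃ p ∈ (t, P) :: L, p.1.Nonempty ∧ p'.1 = p.1 ∧
        ∀ W W', Gd ((t, P) :: L) W W' →
          dl p.1 (fun J => p.2 (J.piecewise W W')) = p'.2 (W - W') := fun p' hp' => by
      obtain ⟨p, c1, c2, c3, c4⟩ := a3 p' hp'
      exact ⟨p, List.mem_cons_of_mem _ c1, c2, c3, fun W W' g => c4 W W' g.tail⟩
    rcases t.eq_empty_or_nonempty with h0 | hn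
    · refine ⟨Lt, a1, a2.trans (Nat.le_succ _), a3', fun p hp hn => ?_⟩
      rcases List.mem_cons.1 hp with rfl | hp
      · exact absurd h0 hn.ne_empty
      · obtain ⟨p', c1, c2, c3⟩ := a4 p hp hn
        exact ⟨p', c1, c2, fun W W' g => c3 W W' g.tail⟩
    · refine ⟨(t, G) :: Lt, TT.cons a1 hn b1, Nat.succ_le_succ a2, fun p' hp' => ?_,
        fun p hp hn => ?_⟩
      · rcases List.mem_cons.1 hp' with rfl | hp'
        · exact ⟨(t, P), List.mem_cons_self, hn, rfl, fun W W' g => b2 W W' g.tail⟩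
        · exact a3' p' hp'
      · rcases List.mem_cons.1 hp with rfl | hp
        · exact ⟨(t, G), List.mem_cons_self, rfl, fun W W' g => b2 W W' g.tail⟩
        · obtain ⟨p', c1, c2, c3⟩ := a4 p hp hn
          exact ⟨p', List.mem_cons_of_mem _ c1, c2, fun W W' g => c3 W W' g.tail⟩

/-- **the top tower**: cube values of forms depend on the difference only -/
theorem valt (h : Twr L) : ∃ Lt : List (Cd j q), TT Lt ∧ Lt.length ≤ L.length ∧
    (∀ p' ∈ Lt, ∃ p ∈ L, p'.1 = p.1) ∧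
    (∀ cen ρ W W', 2 ^ j * ρ < 1 / 2 → Hy L cen ρ W W' → Vl Lt (2 ^ j * ρ) (W - W')) ∧
    ∀ t F, Frm L t F → ∃ G, Top Lt t G ∧ ∀ cen ρ W W', 2 ^ j * ρ < 1 / 2 → Hy L cen ρ W W' →
      dl t (fun J => F (J.piecewise W W')) = G (W - W') := by
  obtain ⟨Lt, a1, a2, a3, a4⟩ := valB h
  refine ⟨Lt, a1, a2, fun p' hp' => ?_, fun cen ρ W W' h1 h2 p' hp' => ?_, fun t F hF => ?_⟩
  · obtain ⟨p, c1, -, c3, -⟩ := a3 p' hp'
    exact ⟨p, c1, c3⟩
  · obtain ⟨p, c1, c2, -, c4⟩ := a3 p' hp'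
    rw [← c4 W W' ⟨cen, ρ, h1, h2⟩]
    exact (round_le _ _).trans (near h2 c1 c2)
  · obtain ⟨G, b1, b2⟩ := valA (Lt := Lt) h (Gd L) (fun p hp hn => by
      obtain ⟨p', c1, c2, c3⟩ := a4 p hp hn
      exact ⟨p', c1, c2, fun W W' g => rdH hp hn g (c3 W W' g)⟩) hF
    exact ⟨G, b1, fun cen ρ W W' h1 h2 => b2 W W' ⟨cen, ρ, h1, h2⟩⟩

/-- renaming of the classes -/
def rn (γ : Fin j ↪ Fin j') (L : List (Cd j q)) : List (Cd j' q) :=
  L.map fun p => (p.1.map γ, fun W => p.2 (W ∘ γ))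

theorem rnF (γ : Fin j ↪ Fin j') (h : Top L t F) :
    Top (rn γ L) (t.map γ) (fun W => F (W ∘ γ)) := by
  induction h with
  | cst d => exact Top.cst d
  | zero t => exact Top.zero _
  | add _ _ h1 h2 => exact Top.add h1 h2
  | ent i l hi _ h1 =>
    exact TbP.congr' (Top.ent (γ i) l (fun hh => hi ((Finset.mem_map' _).1 hh)) h1)
      (Finset.map_insert _ _ _).symm (fun W => rfl)
  | brk p hp hd _ h1 =>
    exact TbP.congr' (Top.brk (p.1.map γ, fun W => p.2 (W ∘ γ))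
      (List.mem_map.2 ⟨p, hp, rfl⟩) ((Finset.disjoint_map _).2 hd) h1)
      (Finset.map_union _ _).symm (fun W => rfl)

theorem rnT (γ : Fin j ↪ Fin j') (h : TT L) : TT (rn γ L) := by
  induction h with
  | nil => exact TT.nil
  | cons _ hn hf ih => exact TT.cons ih (Finset.map_nonempty.2 hn) (rnF γ hf)

theorem rn_len (γ : Fin j ↪ Fin j') (L : List (Cd j q)) : (rn γ L).length = L.length :=
  List.length_map _

theorem rn_vl (γ : Fin j ↪ Fin j') (r : ℝ) (W : Pt j' q) : Vl (rn γ L) r W ↔ Vl L r (W ∘ γ) :=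
  ⟨fun h p hp => h _ (List.mem_map.2 ⟨p, hp, rfl⟩), fun h p hp => by
    obtain ⟨p', hp', rfl⟩ := List.mem_map.1 hp
    exact h p' hp'⟩

/-- proper types stay proper -/
theorem rn_pr (γ : Fin j ↪ Fin j') (h : Pr L) : Pr (rn γ L) := fun p hp e => by
  obtain ⟨p', hp', rfl⟩ := List.mem_map.1 hp
  refine h p' hp' (eq_univ_of_forall fun i => (Finset.mem_map' γ).1 ?_)
  have e' : p'.1.map γ = univ := e
  rw [e']; exact mem_univ _

/-- a class outside the image makes all types proper -/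
theorem rn_pr' (γ : Fin j ↪ Fin j') (c : Fin j') (hc : ∀ i, γ i ≠ c) : Pr (rn γ L) :=
  fun p hp e => by
    obtain ⟨p', hp', rfl⟩ := List.mem_map.1 hp
    have e' : p'.1.map γ = univ := e
    obtain ⟨i, -, hi⟩ := mem_map.1 (e' ▸ mem_univ c : c ∈ p'.1.map γ)
    exact hc i hi

theorem vl_app {L L' : List (Cd j q)} {r : ℝ} {W : Pt j q} :
    Vl (L ++ L') r W ↔ Vl L r W ∧ Vl L' r W :=
  ⟨fun h => ⟨fun p hp => h p (List.mem_append_left _ hp), fun p hp => h p (List.mem_append_right _ hp)⟩,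
    fun h p hp => (List.mem_append.1 hp).elim (h.1 p) (h.2 p)⟩

theorem pr_app {L L' : List (Cd j q)} (h : Pr L) (h' : Pr L') : Pr (L ++ L') :=
  fun p hp => (List.mem_append.1 hp).elim (h p) (h' p)

end

end Vale.Agent.P057T.Loc.H24
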