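import Vale.Agent.P057T.Gb.Defs
import Vale.Agent.P057T.Gb.ValH24

/-! Rows PERM and TOPL. -/

set_option linter.all false

open Finset
open scoped BigOperators

namespace Vale.Agent.P057T.Gb

open Vale.Agent.P057Z Vale.Agent.P057L Vale.Agent.P057T.Gkh Vale.Agent.P057T.Loc

noncomputable section

namespace PtH

variable {j q : ℕ}

theorem flat_tt {α : Type} (f : α → List (Cd j q)) (h : ∀ a, TT (f a)) (s : List α) :
    TT (s.flatMap f) := by
  induction s with
  | nil => exact TT.nil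
  | cons a s ih => rw [List.flatMap_cons]; exact TbP.app (h a) ih

theorem flat_len {α β : Type} (f : α → List β) (n : ℕ) (h : ∀ a, (f a).length = n) (s : List α) :
    (s.flatMap f).length = s.length * n := by
  induction s with
  | nil => simp
  | cons a s ih => rw [List.flatMap_cons, List.length_append, ih, h, List.length_cons]; ring

theorem pm_one (L : List (Cd j q)) : pm 1 L = L := by
  unfold pm
  conv_rhs => rw [← List.map_id L]
  refine List.map_congr_left fun u _ => Prod.ext ?_ rfl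
  exact Finset.map_refl

theorem sb_eq (J : Finset (Fin j)) (W W1 : Pt j q) : sb J W1 W = J.piecewise W W1 := by
  funext i
  by_cases h : i ∈ J <;> simp [sb, h]

end PtH

theorem perm : PERM := by
  intro j q
  have hv : ∀ (σ : Equiv.Perm (Fin j)) (L : List (Cd j q)) r W,
      Vl (pm σ L) r W ↔ Vl L r (W ∘ σ) := fun σ L r W => H24.rn_vl σ.toEmbedding r W
  refine ⟨fun σ L => ⟨fun h => H24.rnT σ.toEmbedding h, fun h => H24.rn_pr σ.toEmbedding h,
    hv σ L, fun t F h => H24.rnF σ.toEmbedding h⟩, fun L hT => ?_⟩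
  have hm : ∀ u, u ∈ (univ : Finset (Equiv.Perm (Fin j))).toList.flatMap (fun σ => pm σ L) ↔
      ∃ σ, u ∈ pm σ L := fun u => by simp [List.mem_flatMap]
  refine ⟨(univ : Finset (Equiv.Perm (Fin j))).toList.flatMap fun σ => pm σ L,
    PtH.flat_tt (fun σ : Equiv.Perm (Fin j) => pm σ L) (fun σ => H24.rnT σ.toEmbedding hT) _,
    fun u hu => (hm u).2 ⟨1, by rwa [PtH.pm_one]⟩, ?_, fun h u hu => ?_, fun τ r W h u hu => ?_⟩
  · rw [PtH.flat_len (fun σ : Equiv.Perm (Fin j) => pm σ L) L.length (fun σ => List.length_map _), length_toList, card_univ,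
      Fintype.card_perm, Fintype.card_fin]
  · obtain ⟨σ, hσ⟩ := (hm u).1 hu
    exact H24.rn_pr σ.toEmbedding h u hσ
  · obtain ⟨σ, hσ⟩ := (hm u).1 hu
    have : Vl (pm (τ * σ) L) r W := fun v hv' => h v ((hm v).2 ⟨_, hv'⟩)
    exact (hv σ L r _).2 ((hv (τ * σ) L r W).1 this) u hσ

theorem topl : TOPL := by
  intro j q L hL
  obtain ⟨Lt, h1, h2, -, h3, h4⟩ := H24.valt hL
  refine ⟨Lt, h1, h2, fun t F hF => ?_⟩
  obtain ⟨G, g1, g2⟩ := h4 t F hF
  refine ⟨G, g1, fun s ρ W W1 h0 hρ hA => ?_⟩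
  have hy : H24.Hy L s ρ W W1 := fun J => by rw [← PtH.sb_eq]; exact hA J
  refine ⟨h3 s ρ W W1 (by linarith) hy, ?_⟩
  simp only [PtH.sb_eq]
  exact g2 s ρ W W1 (by linarith) hy

end

end Vale.Agent.P057T.Gb
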