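import Vale.Agent.P057T.Bsym
import Vale.Agent.P057T.TenH48

/-! The swap argument for a phase that is additive in one class only. -/

set_option linter.all false

open Finset
open scoped BigOperators

namespace Vale.Agent.P057T.Sw

open Vale.Agent.P057L Vale.Agent.P057L.WA Vale.Agent.P057T.Sy
open Vale.Agent.P057T.Ten (cj mix norm_cj)

noncomputable section

open Classical in
/-- the indicator of a proposition -/
def ind (P : Prop) : ℂ := if P then 1 else 0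

theorem ind_pos {P : Prop} (h : P) : ind P = 1 := if_pos h

theorem ind_neg {P : Prop} (h : ¬P) : ind P = 0 := if_neg h

theorem ind_and (P Q : Prop) : ind (P ∧ Q) = ind P * ind Q := by
  by_cases p : P <;> by_cases q : Q <;> simp [ind, p, q]

theorem ind_conj (P : Prop) : (starRingEnd ℂ) (ind P) = ind P := by
  by_cases p : P <;> simp [ind, p]

theorem ind_sq (P : Prop) : ind P * ind P = ind P := by
  by_cases p : P <;> simp [ind, p]

theorem ind_mul {P : Prop} {a : ℂ} (h : ¬P → a = 0) : a * ind P = a := by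
  by_cases p : P
  · rw [ind_pos p, mul_one]
  · rw [h p, zero_mul]

theorem cs1 {α β : Type} (X : Finset α) (Z : Finset β) (c : α → ℂ) (G : β → α → ℂ)
    (hc : ∀ p, ‖c p‖ ≤ 1) :
    ‖∑ p ∈ X, c p * ∑ z ∈ Z, G z p‖ ^ 2 ≤
      X.card * (∑ z' ∈ Z, ∑ z ∈ Z, ∑ p ∈ X, G z p * (starRingEnd ℂ) (G z' p)).re := by
  have h1 : ‖∑ p ∈ X, c p * ∑ z ∈ Z, G z p‖ ≤ ∑ p ∈ X, ‖∑ z ∈ Z, G z p‖ :=
    (norm_sum_le _ _).trans (sum_le_sum fun p _ => by
      rw [norm_mul]; exact mul_le_of_le_one_left (norm_nonneg _) (hc p))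
  refine (pow_le_pow_left₀ (norm_nonneg _) h1 2).trans (sq_sum_le_card_mul_sum_sq.trans
    (mul_le_mul_of_nonneg_left ?_ (by positivity)))
  have h2 : ((∑ p ∈ X, ‖∑ z ∈ Z, G z p‖ ^ 2 : ℝ) : ℂ) =
      ∑ z' ∈ Z, ∑ z ∈ Z, ∑ p ∈ X, G z p * (starRingEnd ℂ) (G z' p) := by
    push_cast
    simp only [← Complex.mul_conj', map_sum, sum_mul, mul_sum]
    rw [sum_comm]
    refine sum_congr rfl fun z' _ => ?_
    rw [sum_comm]
  rw [← h2, Complex.ofReal_re]

/-- two Cauchy-Schwarz steps that keep the supports -/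
theorem two {α : Type} (X : Finset α) (S : α → Prop) (U W : α → ℂ) (ω : α → α → ℝ)
    (hU : ∀ x, ‖U x‖ ≤ 1) (hW : ∀ x, ‖W x‖ ≤ 1) (U0 : ∀ x, ¬S x → U x = 0)
    (W0 : ∀ x, ¬S x → W x = 0) :
    ‖∑ x ∈ X, U x * ∑ y ∈ X, W y * ee (ω x y)‖ ^ 4 ≤ (X.card : ℝ) ^ 4 *
      (∑ x1 ∈ X, ∑ y1 ∈ X, ∑ x ∈ X, ∑ y ∈ X, ind (S x ∧ S x1) * ind (S y ∧ S y1) *
        ee (ω x y - ω x y1 - (ω x1 y - ω x1 y1))).re := by
  have e0 : ∑ x ∈ X, U x * ∑ y ∈ X, W y * ee (ω x y) =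
      ∑ x ∈ X, U x * ∑ y ∈ X, ind (S x) * (W y * ee (ω x y)) := by
    refine sum_congr rfl fun x _ => ?_
    rw [← mul_sum, ← mul_assoc, ind_mul (U0 x)]
  have k1 := cs0 X X U (fun y x => ind (S x) * (W y * ee (ω x y))) hU
  have e1 : ∑ y1 ∈ X, ∑ y ∈ X, ∑ x ∈ X, ind (S x) * (W y * ee (ω x y)) *
      (starRingEnd ℂ) (ind (S x) * (W y1 * ee (ω x y1))) =
      ∑ p ∈ X ×ˢ X, (W p.2 * (starRingEnd ℂ) (W p.1)) *
        ∑ x ∈ X, ind (S p.2 ∧ S p.1) * (ind (S x) * ee (ω x p.2 - ω x p.1)) := by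
    rw [sum_product]
    refine sum_congr rfl fun y1 _ => sum_congr rfl fun y _ => ?_
    rw [← mul_sum, ← mul_assoc, ind_mul (fun h => by
      by_cases h1 : S y
      · rw [W0 y1 fun h2 => h ⟨h1, h2⟩, map_zero, mul_zero]
      · rw [W0 y h1, zero_mul]), mul_sum]
    refine sum_congr rfl fun x _ => ?_
    rw [ee_sub, map_mul, map_mul, ind_conj]
    linear_combination (W y * ee (ω x y) * (starRingEnd ℂ) (W y1) *
      (starRingEnd ℂ) (ee (ω x y1))) * ind_sq (S x)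
  have k2 := cs1 (X ×ˢ X) X (fun p => W p.2 * (starRingEnd ℂ) (W p.1))
    (fun x p => ind (S p.2 ∧ S p.1) * (ind (S x) * ee (ω x p.2 - ω x p.1)))
    (fun p => n2 (hW _) (nc (hW _)))
  have e2 : ∑ x1 ∈ X, ∑ x ∈ X, ∑ p ∈ X ×ˢ X,
      ind (S p.2 ∧ S p.1) * (ind (S x) * ee (ω x p.2 - ω x p.1)) *
        (starRingEnd ℂ) (ind (S p.2 ∧ S p.1) * (ind (S x1) * ee (ω x1 p.2 - ω x1 p.1))) =
      ∑ x1 ∈ X, ∑ y1 ∈ X, ∑ x ∈ X, ∑ y ∈ X, ind (S x ∧ S x1) * ind (S y ∧ S y1) *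
        ee (ω x y - ω x y1 - (ω x1 y - ω x1 y1)) := by
    refine sum_congr rfl fun x1 _ => ?_
    simp only [sum_product]
    rw [sum_comm]
    refine sum_congr rfl fun y1 _ => sum_congr rfl fun x _ => sum_congr rfl fun y _ => ?_
    rw [ee_sub (ω x y - ω x y1), map_mul, map_mul, ind_conj, ind_conj, ind_and (S x)]
    linear_combination (ind (S x) * ee (ω x y - ω x y1) * ind (S x1) *
      (starRingEnd ℂ) (ee (ω x1 y - ω x1 y1))) * ind_sq (S y ∧ S y1)
  rw [e1] at k1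
  rw [e2, card_product] at k2
  rw [e0, show (4 : ℕ) = 2 * 2 from rfl, pow_mul]
  refine (pow_le_pow_left₀ (sq_nonneg _) k1 2).trans ?_
  rw [mul_pow]
  refine (mul_le_mul_of_nonneg_left k2 (by positivity)).trans (le_of_eq ?_)
  push_cast
  ring

variable {V : Type} [AddCommGroup V]

theorem shift (Φ : V → ℂ) (Y T : Finset V) (x w : V)
    (h0 : ∀ s, s - x ∉ Y → Φ s = 0) (hT : ∀ y ∈ Y, x + y - w ∈ T) :
    ∑ t ∈ T, Φ (w + t) = ∑ y ∈ Y, Φ (x + y) := by
  classical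
  have : ∑ y ∈ Y, Φ (x + y) = ∑ t ∈ Y.image (fun y => x + y - w), Φ (w + t) := by
    rw [sum_image (fun a _ b _ h => by simpa using h)]
    exact sum_congr rfl fun y _ => by rw [add_sub_cancel]
  rw [this]
  symm
  refine sum_subset (fun t ht => ?_) fun t _ ht => h0 _ fun h => ht (mem_image.2 ⟨_, h, by abel⟩)
  obtain ⟨y, hy, rfl⟩ := mem_image.1 ht
  exact hT y hy

/-- the alternating sum of the swap -/
def Qs (X : Finset V) (S : V → Prop) (φ : V → V →+ ℝ) (x1 y1 : V) : ℂ :=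
  ∑ x ∈ X, ∑ y ∈ X, ind (S x ∧ S x1) * ind (S y ∧ S y1) *
    ee ((φ x - φ x1) (y - y1) - (φ y - φ y1) (x - x1))

/-- **the swap** -/
theorem swap (X Y T Z : Finset V) (hT : ∀ x ∈ X, ∀ y ∈ Y, x + y ∈ T)
    (hZ : ∀ x ∈ X, ∀ y ∈ Y, y - x ∈ Z) (S : V → Prop) (φ : V → V →+ ℝ) (g A B : V → ℂ)
    (hg : ∀ x, ‖g x‖ ≤ 1) (hA : ∀ x, ‖A x‖ ≤ 1) (hB : ∀ x, ‖B x‖ ≤ 1)
    (B0 : ∀ x, ¬S x → B x = 0) :
    ‖∑ x ∈ X, ∑ y ∈ Y, g (x + y) * ee (φ x y) * (A y * B x)‖ ^ 8 ≤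
      ((T.card : ℝ) * Z.card * X.card) ^ 4 * (∑ x1 ∈ X, ∑ y1 ∈ X, Qs X S φ x1 y1).re := by
  classical
  obtain ⟨A', hA'⟩ : ∃ A' : V → ℂ, ∀ y, A' y = if y ∈ Y then A y else 0 := ⟨_, fun _ => rfl⟩
  have a0 : ∀ y, y ∉ Y → A' y = 0 := fun y hy => by rw [hA', if_neg hy]
  have a1 : ∀ y, ‖A' y‖ ≤ 1 := fun y => by
    rw [hA']; split_ifs
    · exact hA y
    · simp
  have e1 : ∑ x ∈ X, ∑ y ∈ Y, g (x + y) * ee (φ x y) * (A y * B x) =
      ∑ s ∈ T, g s * ∑ x ∈ X, ee (φ x (s - x)) * (A' (s - x) * B x) := by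
    simp only [mul_sum]
    rw [sum_comm (s := T)]
    refine sum_congr rfl fun x hx => ?_
    have := shift (fun s => g s * (ee (φ x (s - x)) * (A' (s - x) * B x))) Y T x 0
      (fun s hs => by simp [a0 _ hs]) (fun y hy => by rw [sub_zero]; exact hT x hx y hy)
    simp only [zero_add, add_sub_cancel_left] at this
    rw [this]
    refine sum_congr rfl fun y hy => ?_
    rw [hA', if_pos hy, mul_assoc]
  have k1 := cs0 T X g (fun x s => ee (φ x (s - x)) * (A' (s - x) * B x)) hg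
  rw [← e1] at k1
  have e2 : ∑ x' ∈ X, ∑ x ∈ X, ∑ s ∈ T, ee (φ x (s - x)) * (A' (s - x) * B x) *
        (starRingEnd ℂ) (ee (φ x' (s - x')) * (A' (s - x') * B x')) =
      ∑ z ∈ Z, ∑ x ∈ X, (B x * ee (φ x z) * (starRingEnd ℂ) (A' (x + z))) *
        ∑ x' ∈ X, (A' (x' + z) * (starRingEnd ℂ) (B x' * ee (φ x' z))) *
          ee (φ x x' - φ x' x) := by
    rw [sum_comm (s := Z), sum_comm]
    refine sum_congr rfl fun x hx => ?_
    simp only [mul_sum]
    rw [sum_comm (s := Z)]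
    refine sum_congr rfl fun x' hx' => ?_
    have s1 := shift (fun s => ee (φ x (s - x)) * (A' (s - x) * B x) *
        (starRingEnd ℂ) (ee (φ x' (s - x')) * (A' (s - x') * B x'))) Y T x 0
      (fun s hs => by simp [a0 _ hs]) (fun y hy => by rw [sub_zero]; exact hT x hx y hy)
    have s2 := shift (fun s => ee (φ x (s - x)) * (A' (s - x) * B x) *
        (starRingEnd ℂ) (ee (φ x' (s - x')) * (A' (s - x') * B x'))) Y Z x (x + x')
      (fun s hs => by simp [a0 _ hs]) (fun y hy => by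
        rw [add_sub_add_left_eq_sub]; exact hZ x' hx' y hy)
    simp only [zero_add] at s1
    rw [s1, ← s2]
    refine sum_congr rfl fun z _ => ?_
    have b1 : x + x' + z - x = x' + z := by abel
    have b2 : x + x' + z - x' = x + z := by abel
    rw [b1, b2, map_add, map_add, ee_sub, ee_add, ee_add]
    simp only [map_mul]
    ring
  rw [e2] at k1
  have eQ : ∑ x1 ∈ X, ∑ y1 ∈ X, Qs X S φ x1 y1 =
      ∑ x1 ∈ X, ∑ y1 ∈ X, ∑ x ∈ X, ∑ y ∈ X, ind (S x ∧ S x1) * ind (S y ∧ S y1) *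
        ee (φ x y - φ y x - (φ x y1 - φ y1 x) - (φ x1 y - φ y x1 - (φ x1 y1 - φ y1 x1))) := by
    refine sum_congr rfl fun x1 _ => sum_congr rfl fun y1 _ => sum_congr rfl fun x _ =>
      sum_congr rfl fun y _ => ?_
    congr 2
    simp only [AddMonoidHom.sub_apply, map_sub]
    ring
  have k2 : ∀ z ∈ Z, ‖∑ x ∈ X, (B x * ee (φ x z) * (starRingEnd ℂ) (A' (x + z))) *
        ∑ x' ∈ X, (A' (x' + z) * (starRingEnd ℂ) (B x' * ee (φ x' z))) *
          ee (φ x x' - φ x' x)‖ ^ 4 ≤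
      (X.card : ℝ) ^ 4 * (∑ x1 ∈ X, ∑ y1 ∈ X, Qs X S φ x1 y1).re := fun z _ => by
    rw [eQ]
    exact two X S _ _ (fun x x' => φ x x' - φ x' x)
      (fun x => n2 (n2 (hB _) (ne1 _)) (nc (a1 _))) (fun x => n2 (a1 _) (nc (n2 (hB _) (ne1 _))))
      (fun x h => by simp [B0 x h]) (fun x h => by simp [B0 x h])
  have k3 := (pow_le_pow_left₀ (norm_nonneg _) (norm_sum_le Z fun z =>
    ∑ x ∈ X, (B x * ee (φ x z) * (starRingEnd ℂ) (A' (x + z))) *
        ∑ x' ∈ X, (A' (x' + z) * (starRingEnd ℂ) (B x' * ee (φ x' z))) *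
          ee (φ x x' - φ x' x)) (3 + 1)).trans
    ((pow_sum_le_card_mul_sum_pow (fun _ _ => norm_nonneg _) 3).trans
      (mul_le_mul_of_nonneg_left (sum_le_sum k2) (by positivity)))
  rw [sum_const, nsmul_eq_mul] at k3
  rw [show (8 : ℕ) = 2 * 4 from rfl, pow_mul]
  refine (pow_le_pow_left₀ (sq_nonneg _) k1 4).trans ?_
  rw [mul_pow]
  refine (mul_le_mul_of_nonneg_left k3 (by positivity)).trans (le_of_eq ?_)
  ring

/-- the box inequality for sums -/
theorem boxs {α ζ : Type} {r : ℕ} (P : Finset α) (hP : P.Nonempty) (Z : Finset ζ)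
    (F : (Fin r → α) → ζ → ℂ) (c : Fin r → (Fin r → α) → ζ → ℂ) (h1 : ∀ l W z, ‖c l W z‖ ≤ 1)
    (h2 : ∀ l W a z, c l (Function.update W l a) z = c l W z) {δ : ℝ} (h0 : 0 ≤ δ)
    (h : δ * ((P.card : ℝ) ^ r * Z.card) ≤
      ‖∑ t ∈ Fintype.piFinset (fun _ : Fin r => P), ∑ z ∈ Z, F t z * ∏ l, c l t z‖) :
    δ ^ (2 ^ r) * ((P.card : ℝ) ^ r * (P.card : ℝ) ^ r * Z.card) ≤
      ‖∑ t1 ∈ Fintype.piFinset (fun _ : Fin r => P), ∑ t ∈ Fintype.piFinset (fun _ : Fin r => P),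
        ∑ z ∈ Z, ∏ e : Fin r → Bool, cj e (F (mix e t t1) z)‖ := by
  classical
  rcases Z.eq_empty_or_nonempty with rfl | hZ
  · simp
  haveI : Nonempty P := hP.to_subtype
  have p0 : (0 : ℝ) < P.card := by exact_mod_cast hP.card_pos
  have z0 : (0 : ℝ) < Z.card := by exact_mod_cast hZ.card_pos
  have key := Ten.box (G := P) r Z (fun W z => F (fun i => (W i).1) z.1)
    (fun l W z => c l (fun i => (W i).1) z.1) (fun l W z => h1 _ _ _)
    (fun l W a z => by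
      have e : (fun i => (Function.update W l a i).1) =
          Function.update (fun i => (W i).1) l a.1 := by
        funext i
        by_cases h : i = l
        · subst h; simp
        · simp [Function.update_of_ne h]
      rw [e, h2])
  have ez : ∀ f : ζ → ℂ, 𝔼 z : Z, f z.1 = (∑ z ∈ Z, f z) / Z.card := fun f => by
    rw [Fintype.expect_eq_sum_div_card, Fintype.card_coe, sum_coe_sort Z f]
  have ew : ∀ f : (Fin r → α) → ℂ, 𝔼 W : Fin r → P, f (fun i => (W i).1) =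
      (∑ t ∈ Fintype.piFinset (fun _ : Fin r => P), f t) / (P.card : ℂ) ^ r := fun f => by
    rw [Ten.ex_pi P f, expect_eq_sum_div_card, Fintype.card_piFinset]
    simp
  have em : ∀ (e : Fin r → Bool) (W W' : Fin r → P), (fun i => (mix e W W' i).1) =
      mix e (fun i => (W i).1) (fun i => (W' i).1) := fun e W W' => by
    funext i
    by_cases h : e i <;> simp [mix, h]
  have e1 : 𝔼 z : Z, 𝔼 W : Fin r → P, F (fun i => (W i).1) z.1 * ∏ l, c l (fun i => (W i).1) z.1 =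
      (∑ t ∈ Fintype.piFinset (fun _ : Fin r => P), ∑ z ∈ Z, F t z * ∏ l, c l t z) /
        ((P.card : ℂ) ^ r * Z.card) := by
    rw [expect_comm]
    have : ∀ W : Fin r → P, 𝔼 z : Z, F (fun i => (W i).1) z.1 * ∏ l, c l (fun i => (W i).1) z.1 =
        (∑ z ∈ Z, F (fun i => (W i).1) z * ∏ l, c l (fun i => (W i).1) z) / Z.card := fun W =>
      ez fun z => F (fun i => (W i).1) z * ∏ l, c l (fun i => (W i).1) z
    simp only [this]
    rw [ew fun t => (∑ z ∈ Z, F t z * ∏ l, c l t z) / Z.card, ← sum_div, div_div, mul_comm]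
  have e2 : 𝔼 z : Z, 𝔼 W' : Fin r → P, 𝔼 W : Fin r → P, ∏ e : Fin r → Bool,
      cj e (F (fun i => (mix e W W' i).1) z.1) =
      (∑ t1 ∈ Fintype.piFinset (fun _ : Fin r => P), ∑ t ∈ Fintype.piFinset (fun _ : Fin r => P),
        ∑ z ∈ Z, ∏ e : Fin r → Bool, cj e (F (mix e t t1) z)) /
        ((P.card : ℂ) ^ r * (P.card : ℂ) ^ r * Z.card) := by
    simp only [em]
    rw [expect_comm]
    have : ∀ W' : Fin r → P, 𝔼 z : Z, 𝔼 W : Fin r → P, ∏ e : Fin r → Bool,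
        cj e (F (mix e (fun i => (W i).1) (fun i => (W' i).1)) z.1) =
        (∑ t ∈ Fintype.piFinset (fun _ : Fin r => P), ∑ z ∈ Z, ∏ e : Fin r → Bool,
          cj e (F (mix e t (fun i => (W' i).1)) z)) / ((P.card : ℂ) ^ r * Z.card) := fun W' => by
      rw [expect_comm]
      have : ∀ W : Fin r → P, 𝔼 z : Z, ∏ e : Fin r → Bool,
          cj e (F (mix e (fun i => (W i).1) (fun i => (W' i).1)) z.1) =
          (∑ z ∈ Z, ∏ e : Fin r → Bool,
            cj e (F (mix e (fun i => (W i).1) (fun i => (W' i).1)) z)) / Z.card := fun W =>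
        ez fun z => ∏ e : Fin r → Bool, cj e (F (mix e (fun i => (W i).1) (fun i => (W' i).1)) z)
      simp only [this]
      rw [ew fun t => (∑ z ∈ Z, ∏ e : Fin r → Bool,
        cj e (F (mix e t (fun i => (W' i).1)) z)) / Z.card, ← sum_div, div_div, mul_comm]
    simp only [this]
    rw [ew fun t1 => (∑ t ∈ Fintype.piFinset (fun _ : Fin r => P), ∑ z ∈ Z, ∏ e : Fin r → Bool,
      cj e (F (mix e t t1) z)) / ((P.card : ℂ) ^ r * Z.card), ← sum_div, div_div]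
    congr 1
    ring
  rw [e1, e2, norm_div, norm_div] at key
  simp only [norm_mul, norm_pow, Complex.norm_natCast] at key
  rw [← le_div_iff₀ (by positivity)] at h ⊢
  exact (pow_le_pow_left₀ h0 h _).trans key

/-- the sign of a vertex -/
def sg {r : ℕ} (e : Fin r → Bool) : ℝ := (-1) ^ (∑ i, if e i then 1 else 0)

theorem cj_ee {r : ℕ} (e : Fin r → Bool) (x : ℝ) : cj e (ee x) = ee (sg e * x) := by
  unfold cj sg
  generalize (∑ i, if e i then 1 else 0) = n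
  induction n generalizing x with
  | zero => simp
  | succ n ih =>
    rw [pow_succ, pow_succ, RingHom.mul_def, RingHom.comp_apply, ← ee_neg, ih]
    congr 1
    ring

/-- the derivative of the frequency along the cube spanned by t and t1 -/
def Dl {α : Type} {r : ℕ} (ψ : (Fin r → α) → V → V →+ ℝ) (t t1 : Fin r → α) (x : V) : V →+ ℝ :=
  ∑ e : Fin r → Bool, sg e • ψ (mix e t t1) x

theorem Dl_apply {α : Type} {r : ℕ} (ψ : (Fin r → α) → V → V →+ ℝ) (t t1 : Fin r → α) (x y : V) :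
    Dl ψ t t1 x y = ∑ e : Fin r → Bool, sg e * ψ (mix e t t1) x y := by
  simp [Dl, AddMonoidHom.finset_sum_apply]

theorem pn {ι : Type} (s : Finset ι) (f : ι → ℂ) (h : ∀ i, ‖f i‖ ≤ 1) : ‖∏ i ∈ s, f i‖ ≤ 1 := by
  rw [norm_prod]
  exact prod_le_one (fun _ _ => norm_nonneg _) fun i _ => h i

/-- **the analytic half of the symmetry step**: box inequality in the other classes, swap, and
a choice of the second points -/
theorem sw {α : Type} {r : ℕ} (P : Finset α) (hP : P.Nonempty) (X Y T Z : Finset V)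
    (hX : X.Nonempty) (hT : ∀ x ∈ X, ∀ y ∈ Y, x + y ∈ T) (hZ : ∀ x ∈ X, ∀ y ∈ Y, y - x ∈ Z)
    (Om : (Fin r → α) → V → Prop) (ψ : (Fin r → α) → V → V →+ ℝ) (g A B : (Fin r → α) → V → ℂ)
    (c : Fin r → (Fin r → α) → V × V → ℂ) (hg : ∀ t x, ‖g t x‖ ≤ 1) (hA : ∀ t x, ‖A t x‖ ≤ 1)
    (hB : ∀ t x, ‖B t x‖ ≤ 1) (B0 : ∀ t x, ¬Om t x → B t x = 0) (h1 : ∀ l t z, ‖c l t z‖ ≤ 1)
    (h2 : ∀ l t a z, c l (Function.update t l a) z = c l t z) {δ : ℝ} (h0 : 0 ≤ δ)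
    (h : δ * ((P.card : ℝ) ^ r * ((X.card : ℝ) * Y.card)) ≤
      ‖∑ t ∈ Fintype.piFinset (fun _ : Fin r => P), ∑ x ∈ X, ∑ y ∈ Y,
        g t (x + y) * ee (ψ t x y) * (A t y * B t x) * ∏ l, c l t (x, y)‖) :
    ∃ t1 ∈ Fintype.piFinset (fun _ : Fin r => P), ∃ x1 ∈ X, ∃ y1 ∈ X,
      δ ^ (2 ^ r * 8) * ((X.card : ℝ) * Y.card) ^ 8 * (P.card : ℝ) ^ r ≤
        ((T.card : ℝ) * Z.card * X.card) ^ 4 * (X.card : ℝ) ^ 2 *
          (∑ t ∈ Fintype.piFinset (fun _ : Fin r => P),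
            Qs X (fun x => ∀ e, Om (mix e t t1) x) (Dl ψ t t1) x1 y1).re := by
  classical
  generalize hD : Fintype.piFinset (fun _ : Fin r => P) = D at *
  have cD : (D.card : ℝ) = (P.card : ℝ) ^ r := by
    rw [← hD, Fintype.card_piFinset]; simp
  have p0 : (0 : ℝ) < P.card := by exact_mod_cast hP.card_pos
  have d0 : (0 : ℝ) < D.card := by rw [cD]; positivity
  have Dne : D.Nonempty := by rw [← card_pos]; exact_mod_cast d0
  have k1 := boxs P hP (X ×ˢ Y) (fun t z => g t (z.1 + z.2) * ee (ψ t z.1 z.2) * (A t z.2 * B t z.1))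
    c h1 h2 h0 (by rw [hD, card_product]; push_cast; simpa only [sum_product] using h)
  rw [hD, card_product, ← cD] at k1
  push_cast at k1
  have k2 : ∀ t1 t : Fin r → α, ‖∑ z ∈ X ×ˢ Y, ∏ e : Fin r → Bool,
      cj e (g (mix e t t1) (z.1 + z.2) * ee (ψ (mix e t t1) z.1 z.2) *
        (A (mix e t t1) z.2 * B (mix e t t1) z.1))‖ ^ 8 ≤ ((T.card : ℝ) * Z.card * X.card) ^ 4 *
        (∑ x1 ∈ X, ∑ y1 ∈ X, Qs X (fun x => ∀ e, Om (mix e t t1) x) (Dl ψ t t1) x1 y1).re := by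
    intro t1 t
    refine le_trans (le_of_eq ?_) (swap X Y T Z hT hZ (fun x => ∀ e, Om (mix e t t1) x) (Dl ψ t t1)
      (fun s => ∏ e : Fin r → Bool, cj e (g (mix e t t1) s))
      (fun s => ∏ e : Fin r → Bool, cj e (A (mix e t t1) s))
      (fun s => ∏ e : Fin r → Bool, cj e (B (mix e t t1) s))
      (fun _ => pn _ _ fun e => by rw [norm_cj]; exact hg _ _)
      (fun _ => pn _ _ fun e => by rw [norm_cj]; exact hA _ _)
      (fun _ => pn _ _ fun e => by rw [norm_cj]; exact hB _ _)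
      (fun x hx => by
        obtain ⟨e, he⟩ := not_forall.1 hx
        exact prod_eq_zero (mem_univ e) (by rw [B0 _ _ he, map_zero])))
    congr 2
    rw [sum_product]
    refine sum_congr rfl fun x _ => sum_congr rfl fun y _ => ?_
    simp only [map_mul, prod_mul_distrib, cj_ee, Dl_apply, ee_sum]
  have k3 := k1.trans (norm_sum_le _ _) |>.trans (sum_le_sum fun _ _ => norm_sum_le _ _)
  rw [← sum_product'] at k3
  have k4 := (pow_le_pow_left₀ (by positivity) k3 (7 + 1)).trans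
    ((pow_sum_le_card_mul_sum_pow (fun _ _ => norm_nonneg _) 7).trans
      (mul_le_mul_of_nonneg_left (sum_le_sum fun p _ => k2 p.1 p.2) (by positivity)))
  rw [card_product, ← mul_sum, sum_product] at k4
  push_cast at k4
  obtain ⟨q, hq, hle⟩ := exists_le_of_sum_le (s := D ×ˢ X ×ˢ X)
    (f := fun _ => δ ^ (2 ^ r * 8) * ((X.card : ℝ) * Y.card) ^ 8 * (P.card : ℝ) ^ r)
    (g := fun q => ((T.card : ℝ) * Z.card * X.card) ^ 4 * (X.card : ℝ) ^ 2 *
      (∑ t ∈ D, Qs X (fun x => ∀ e, Om (mix e t q.1) x) (Dl ψ t q.1) q.2.1 q.2.2).re)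
    (Dne.product (hX.product hX)) (by
      rw [sum_const, card_product, card_product, nsmul_eq_mul, ← mul_sum, ← cD]
      have e : ∑ q ∈ D ×ˢ X ×ˢ X,
          (∑ t ∈ D, Qs X (fun x => ∀ e, Om (mix e t q.1) x) (Dl ψ t q.1) q.2.1 q.2.2).re =
          ∑ t1 ∈ D, ∑ t ∈ D, (∑ x1 ∈ X, ∑ y1 ∈ X,
            Qs X (fun x => ∀ e, Om (mix e t t1) x) (Dl ψ t t1) x1 y1).re := by
        rw [sum_product]
        refine sum_congr rfl fun t1 _ => ?_
        rw [← Complex.re_sum, ← Complex.re_sum, sum_comm]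
        simp only [sum_product]
      rw [e]
      push_cast
      refine le_of_mul_le_mul_left ?_ (by positivity : 0 < ((D.card : ℝ) * D.card) ^ 7)
      have := mul_le_mul_of_nonneg_left k4 (by positivity : 0 ≤ (X.card : ℝ) ^ 2)
      refine le_trans (le_of_eq ?_) (this.trans (le_of_eq ?_))
      · rw [pow_mul]; ring
      · ring)
  obtain ⟨a1, a2⟩ := mem_product.1 hq
  obtain ⟨a2, a3⟩ := mem_product.1 a2
  exact ⟨q.1, a1, q.2.1, a2, q.2.2, a3, hle⟩

end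

end Vale.Agent.P057T.Sw
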