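import Vale.Agent.P057T.Gb.Defs
import Vale.Agent.P057T.Gb.ValH24

/-! Rows TOPL and PERM. -/

set_option linter.all false

open Finset
open scoped BigOperators

namespace Vale.Agent.P057T.Gb

open Vale.Agent.P057Z Vale.Agent.P057L Vale.Agent.P057T.Gkh Vale.Agent.P057T.Loc
open Vale.Agent.P057T.Loc.H24

theorem sb_pw {j q : ℕ} (J : Finset (Fin j)) (W1 W : Pt j q) : sb J W1 W = J.piecewise W W1 := by
  funext i
  by_cases h : i ∈ J <;> simp [sb, h]

theorem topl : TOPL := fun j q L h => by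
  obtain ⟨Lt, a1, a2, -, a4, a5⟩ := valt h
  refine ⟨Lt, a1, a2, fun t F hF => ?_⟩
  obtain ⟨G, b1, b2⟩ := a5 t F hF
  refine ⟨G, b1, fun s ρ W W1 _ h1 h2 => ?_⟩
  simp only [sb_pw] at h2 ⊢
  exact ⟨a4 s ρ W W1 (by linarith) h2, b2 s ρ W W1 (by linarith) h2⟩

theorem pm_one {j q : ℕ} (L : List (Cd j q)) : pm 1 L = L := by
  unfold pm
  conv_rhs => rw [← List.map_id L]
  refine List.map_congr_left fun u _ => Prod.ext ?_ rfl
  exact Finset.map_refl

theorem pm_cat {j q : ℕ} {L : List (Cd j q)} (h : TT L) (s : List (Equiv.Perm (Fin j))) :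
    TT (s.flatMap fun σ => pm σ L) ∧ (s.flatMap fun σ => pm σ L).length = s.length * L.length := by
  induction s with
  | nil => exact ⟨TT.nil, by simp⟩
  | cons σ s ih =>
    rw [List.flatMap_cons]
    refine ⟨TbP.app (rnT σ.toEmbedding h) ih.1, ?_⟩
    rw [List.length_append, ih.2, pm, List.length_map, List.length_cons]
    ring

theorem permH24 : PERM := fun j q => by
  refine ⟨fun σ L => ⟨rnT σ.toEmbedding, rn_pr σ.toEmbedding, rn_vl σ.toEmbedding,
    fun t F => rnF σ.toEmbedding⟩, fun L h => ?_⟩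
  have ms : ∀ σ : Equiv.Perm (Fin j), pm σ L ⊆ (univ.toList.flatMap fun σ => pm σ L) :=
    fun σ u hu => List.mem_flatMap.2 ⟨σ, by simp, hu⟩
  refine ⟨univ.toList.flatMap fun σ => pm σ L, (pm_cat h _).1, by simpa only [pm_one] using ms 1, ?_,
    fun hp u hu => ?_, fun τ r W hW u hu => ?_⟩
  · rw [(pm_cat h _).2, length_toList, card_univ, Fintype.card_perm, Fintype.card_fin]
  · obtain ⟨σ, -, hu⟩ := List.mem_flatMap.1 hu
    exact rn_pr σ.toEmbedding hp u hu
  · obtain ⟨σ, -, hu⟩ := List.mem_flatMap.1 hu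
    exact (rn_vl σ.toEmbedding r _).2 ((rn_vl (τ * σ).toEmbedding r W).1
      fun v hv => hW v (ms _ hv)) u hu

end Vale.Agent.P057T.Gb
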